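import Vale.Agent.P338.R2.H784.Fp.Passes

/-!
P338, stage 2: the states in a phase and the passes as `Run` statements.
-/

namespace Vale.Agent.P338.R2.H784.Fp

open Vale.Agent.P338.R2.H898
open Vale.Agent.P338.R2.H968
open Vale.Agent.P338.R2.H784
open Vale.Agent.P338.R2.H968.CallEnv (mem0 callC)
open Vale.Agent.P338.R2.H525 (dBits mulBits)
open Vale.Agent.P338.R2.H525.Fp (Dim sPar hPar dimR packBits kerBits midBits postBits inputBits
  wordOf VK RK)
open Vale.Agent.P338.R2.H207.Fp (VV)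
open Vale.Agent.P338.R2.H806.Fp (PR)
open Vale.Agent.P338.R2.H778 (bits)
open Vale.Agent.P338.R2.H778.FpW (PN vI vA vB)
open Function (update)

variable {A A₀ : MTM} {l W h n p w : ℕ}

/-- The words in a phase. -/
def zA (A A₀ : MTM) (W p w : ℕ) : WN → Zip (Al A A₀)
  | .w => bw A A₀ (bits W w)
  | .p => bw A A₀ (bits W p)
  | .mu => bw A A₀ (bits W (2 ^ W / p + 1))
  | .s _ => ⟨[], []⟩

/-- The state outside the phases. -/
def sI (A A₀ : MTM) (l h n : ℕ) (dat : Zip (Al A A₀)) : ZS (Al A A₀) :=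
  ⟨dat, ⟨[], []⟩, ⟨[], []⟩, ⟨[], []⟩, ⟨[], []⟩, n, vI l h, fun _ => ⟨[], []⟩⟩

/-- The state between the rounds. -/
def sA (l W h n p w : ℕ) (dat : Zip (Al A A₀)) : ZS (Al A A₀) :=
  ⟨dat, ⟨[], []⟩, ⟨[], []⟩, ⟨[], []⟩, ⟨[], []⟩, n, vA l W h (p - 1), zA A A₀ W p w⟩

/-- The state in a round. -/
def sB (l W h n p w : ℕ) (dat clk opX opY res : Zip (Al A A₀)) : ZS (Al A A₀) :=
  ⟨dat, clk, opX, opY, res, n, vB l W h (p - 1), zA A A₀ W p w⟩

/-- The store of a state. -/
abbrev sto (S : ZS (Al A A₀)) : Store (Mem A A₀) (LF A.Tape A₀.Tape) (Al A A₀) :=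
  ⟨(mem0 A, mem0 A₀), zst .u S⟩

/-- The empty file. -/
abbrev nl (A A₀ : MTM) : Zip (Al A A₀) := ⟨[], []⟩

/-- The rulers of the pack pass. -/
def ρP : PR → PN
  | .K => .K
  | .X => .X
  | .Y => .Y
  | .C => .C
  | .G => .G
  | .E => .E
  | .L => .L
  | .W => .W
  | .Q => .Q

theorem ρP_inj : Function.Injective ρP := by
  intro a b
  cases a <;> cases b <;> simp [ρP]

/-- The rulers of the other passes. -/
def ρM : H207.Fp.RR → PN
  | .K => .K
  | .X => .X
  | .Y => .Y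
  | .C => .C
  | .G => .G
  | .E => .E
  | .W => .W
  | .Q => .Q

theorem ρM_inj : Function.Injective ρM := by
  intro a b
  cases a <;> cases b <;> simp [ρM]

/-- The rulers of the kernel pass. -/
def ρK : RK → PN
  | .X => .X
  | .Q => .Q
  | .G => .G
  | .C => .C
  | .E => .E

theorem ρK_inj : Function.Injective ρK := by
  intro a b
  cases a <;> cases b <;> simp [ρK]

/-- The registers of the middle and of the final pass. -/
def νM : VV → WN
  | .w => .w
  | .z => .s 0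
  | .m => .s 1
  | .m0 => .s 2
  | .r => .s 3
  | .r0 => .s 4
  | .u => .s 5
  | .v => .s 6
  | .v2 => .s 7
  | .t => .s 8
  | .s => .s 9

theorem νM_inj : Function.Injective νM := by
  intro a b
  cases a <;> cases b <;> simp [νM]

/-- The registers of the kernel pass. -/
def νK : VK → WN
  | .w => .w
  | .z => .s 0
  | .k => .s 1
  | .t => .s 2
  | .o => .s 3

theorem νK_inj : Function.Injective νK := by
  intro a b
  cases a <;> cases b <;> simp [νK]

instance : Fintype RK := ⟨{.X, .Q, .G, .C, .E}, by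
  intro x
  cases x <;> simp⟩

instance : Fintype VK := ⟨{.z, .k, .t, .w, .o}, by
  intro x
  cases x <;> simp⟩

/-- The scratch registers of the kernel pass. -/
def scK : List VK := [.z, .k, .t, .o]

variable [DecidableEq (LF A.Tape A₀.Tape)] [DecidableEq (Al A A₀)]

/-- The pack pass. -/
noncomputable def packQ (A A₀ : MTM) [DecidableEq (LF A.Tape A₀.Tape)] [DecidableEq (Al A A₀)] :
    Prog (Mem A A₀) (LF A.Tape A₀.Tape) (Al A A₀) :=
  H806.Fp.packPass (lz .dat) (lz .opX) (fun r => lz (.r (ρP r))) bt .u .k (bt false)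

theorem rulP (l W h p w : ℕ) : H806.Fp.Rul (fun r => vB l W h (p - 1) (ρP r))
    (dimR l W h p w) := by
  refine ⟨rfl, rfl, rfl, ?_, rfl, rfl, rfl, rfl, rfl⟩
  show 2 ^ (sPar W + 1) = 2 * 2 ^ sPar W
  rw [pow_succ]
  ring

theorem rulM (l W h p w : ℕ) : H207.Fp.Rul (fun r => vB l W h (p - 1) (ρM r))
    (dimR l W h p w) := by
  refine ⟨rfl, rfl, rfl, ?_, rfl, rfl, rfl, rfl⟩
  show 2 ^ (sPar W + 1) = 2 * 2 ^ sPar W
  rw [pow_succ]
  ring

theorem rulK (l W h p w : ℕ) : H525.Fp.KFits (fun r => vB l W h (p - 1) (ρK r))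
    (dimR l W h p w) := by
  refine ⟨rfl, rfl, rfl, ?_, rfl⟩
  show 2 ^ (sPar W + 1) = 2 * 2 ^ sPar W
  rw [pow_succ]
  ring

theorem L_lt (hW : 32 ≤ W) : 2 ^ hPar W < W := by
  have h2 : 2 ^ Nat.log 2 W ≤ W := Nat.pow_log_le_self 2 (by omega)
  have h1 : 5 ≤ Nat.log 2 W := Nat.le_log_of_pow_le (by norm_num) (by omega)
  have h4 : 2 ^ Nat.log 2 W = 16 * 2 ^ hPar W := by
    unfold hPar
    rw [show (16 : ℕ) = 2 ^ 4 by norm_num, ← pow_add]
    congr 1
    omega
  have h5 : 1 ≤ 2 ^ hPar W := Nat.one_le_two_pow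
  omega

theorem run_packQ (hW : 32 ≤ W) (hp : 2 * 2 ^ sPar W < p) (M : ℕ → ℕ → Bool)
    (clk opY res : Zip (Al A A₀)) :
    Prog.Run (dd A A₀) (packQ A A₀)
      (sto (sB l W h n p w (bw A A₀ (inputBits (dimR l W h p w)
        (wordOf l h (sPar W) (hPar W) M))) clk (nl A A₀) opY res))
      (80 * ((dimR l W h p w).K * (((dimR l W h p w).X + (dimR l W h p w).Q) *
        ((dimR l W h p w).R * ((dimR l W h p w).E * W)))) + 2)
      (sto (sB l W h n p w (bw A A₀ (inputBits (dimR l W h p w)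
        (wordOf l h (sPar W) (hPar W) M))) clk (bw A A₀ (packBits (dimR l W h p w)
          (wordOf l h (sPar W) (hPar W) M))) opY res)) := by
  have h1 : 1 ≤ 2 ^ sPar W := Nat.one_le_two_pow
  have hD : H806.Fp.Pos (dimR l W h p w) := ⟨Nat.one_le_two_pow, Nat.one_le_two_pow,
    Nat.one_le_two_pow, Nat.one_le_two_pow, Nat.one_le_two_pow, L_lt hW, by
      show 1 ≤ p - 1
      omega⟩
  have hrun := H806.Fp.run_pack (M := Mem A A₀) (F := LF A.Tape A₀.Tape) (α := Al A A₀)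
    (d := dd A A₀) (dimR l W h p w) hD
    (wordOf l h (sPar W) (hPar W) M) (fun k _ x _ g _ y _ i _ => by
      exact H525.Fp.dimR_word l W h M p w k x g y i) (bt (A := A) (A₀ := A₀)) .u .k (bt false)
    (by simp) (lz .dat) (lz .opX) (by simp [lz]) (fun r => lz (.r (ρP r)))
    (fun a b hab => ρP_inj (by simpa [lz] using hab)) (fun r => by simp [lz])
    (fun r => by simp [lz]) (mem0 A, mem0 A₀)
    (zst .u (sB l W h n p w (bw A A₀ (inputBits (dimR l W h p w)
        (wordOf l h (sPar W) (hPar W) M))) clk (nl A A₀) opY res)) _ (rulP l W h p w) rfl rfl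
    (fun r => ⟨_, rfl, by rw [List.length_replicate]; rfl⟩)
  rw [zst_opX] at hrun
  exact hrun

/-- The kernel pass. -/
noncomputable def kerQ (A A₀ : MTM) [DecidableEq (Al A A₀)] :
    Prog (Mem A A₀) (LF A.Tape A₀.Tape) (Al A A₀) :=
  (wpass (lE A A₀ RK VK) .u .k scK H525.Fp.kerP).map (Lens.idL _)
    (ip A.Tape A₀.Tape .res .opY ρK νK)

theorem run_kerQ (hA₀ : Multiplies A₀) (hD : (dimR l W h p w).Ok) (hwp : w < p)
    (dat clk opX : Zip (Al A A₀)) :
    Prog.Run (dd A A₀) (kerQ A A₀)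
      (sto (sB l W h n p w dat clk opX (nl A A₀) (nl A A₀)))
      (30 * (((dimR l W h p w).X + (dimR l W h p w).Q) *
        (dimR l W h p w).R * (dimR l W h p w).E * wcost A₀ W))
      (sto (sB l W h n p w dat clk opX (bw A A₀ (kerBits (dimR l W h p w))) (nl A A₀))) := by
  have hW1 : 1 ≤ W := H207.Fp.W_pos hD
  have hwc := le_wcost A₀ W hW1
  set D := dimR l W h p w with hDD
  have hev := H525.Fp.eval_kerP (L := D.L) (w := []) (rulK l W h p w) hD
    (fun i => if i ∈ scK then 0 else w)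
    (by
      show w = w % p
      rw [Nat.mod_eq_of_lt hwp]) rfl rfl 0 []
  have hpos : ∀ r, 0 < vB l W h (p - 1) (ρK r) := by
    intro r
    have h5 : 1 < p - 1 := H207.Fp.Q_pos hD
    cases r
    · exact Nat.one_le_two_pow
    · show 0 < p - 1
      omega
    · exact Nat.one_le_two_pow
    · exact Nat.one_le_two_pow
    · exact Nat.one_le_two_pow
  have h1 := run_wpassMap (d := dd A A₀) (M := Mem A A₀) hA₀ (lE A A₀ RK VK) (fun _ => rfl) .u .k
    (by simp) scK (by decide) H525.Fp.kerP H525.Fp.kerP_wf (mem := (mem0 A, mem0 A₀)) rfl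
    (W := W) (L := D.L) (p := p) (μ := 2 ^ W / p + 1) hD.hL hW1
    (H207.Fp.p_lt D hD) (H207.Fp.mu_lt D hD) (fun r => vB l W h (p - 1) (ρK r))
    (fun r _ => hpos r) (fun _ => w) (H525.Fp.kerReg D (fun i => if i ∈ scK then 0 else w)
      (D.X + D.Q))
    (by
      intro i hi
      cases i <;> first | rfl | exact absurd (by decide) hi) []
    (ι := ip A.Tape A₀.Tape .res .opY ρK νK) (ip_inj rfl rfl (by simp) ρK_inj νK_inj
      (by intro r; cases r <;> simp [ρK]) (by intro r; cases r <;> simp [ρK])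
      (by intro r; cases r <;> simp [νK]) (by intro r; cases r <;> simp [νK]))
    (zst .u (sB l W h n p w dat clk opX (nl A A₀) (nl A A₀)))
    (wInit_zst (W := W) (p := p) (μ := 2 ^ W / p + 1) scK H525.Fp.kerP
      (sB l W h n p w dat clk opX (nl A A₀) (nl A A₀)) rfl rfl rfl rfl
      (fun _ => w) (by
        intro i
        cases i <;> simp [sB, zA, νK, scK]) [] rfl rfl) hev
  rw [show ip A.Tape A₀.Tape .res .opY ρK νK (WF.out : WF RK VK A₀.Tape) = lz .opY from rfl,
    zst_opY] at h1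
  refine h1.mono ?_
  have hb := H525.Fp.bd_kerP (rulK l W h p w) hD (fun _ => wcost A₀ W) (wcost A₀ W) (wcost A₀ W)
    (by omega) (fun _ _ _ => le_rfl) (fun _ => le_rfl) (fun _ _ => le_rfl) (fun _ => le_rfl)
  rw [← hDD] at hb
  have e1 : 1 ≤ D.R * D.E := Nat.mul_pos (by
    unfold Dim.R
    exact Nat.mul_pos (by have := hD.hX; omega) hD.hG) hD.hE
  have e2 : 1 ≤ D.X + D.Q := by have := hD.hX; omega
  have e3 : (D.X + D.Q) * wcost A₀ W ≤ (D.X + D.Q) * D.R * D.E * wcost A₀ W := by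
    calc (D.X + D.Q) * wcost A₀ W = (D.X + D.Q) * 1 * wcost A₀ W := by ring
      _ ≤ (D.X + D.Q) * (D.R * D.E) * wcost A₀ W := by gcongr
      _ = _ := by ring
  have e4 : wcost A₀ W ≤ (D.X + D.Q) * wcost A₀ W := Nat.le_mul_of_pos_left _ e2
  have e5 : scK.length = 4 := rfl
  rw [e5]
  have e6 : 2 * (D.X + D.Q) * wcost A₀ W = 2 * ((D.X + D.Q) * wcost A₀ W) := by ring
  rw [e6] at hb
  omega

/-- The middle pass. -/
noncomputable def midQ (A A₀ : MTM) [DecidableEq (Al A A₀)] :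
    Prog (Mem A A₀) (LF A.Tape A₀.Tape) (Al A A₀) :=
  (wpass (lE A A₀ H207.Fp.RR VV) .u .k H207.Fp.scr H207.Fp.progM).map (Lens.idL _)
    (ip A.Tape A₀.Tape .res .opX ρM νM)

/-- The final pass. -/
noncomputable def postQ (A A₀ : MTM) [DecidableEq (Al A A₀)] :
    Prog (Mem A A₀) (LF A.Tape A₀.Tape) (Al A A₀) :=
  (wpass (lE A A₀ H207.Fp.RR VV) .u .k H207.Fp.scr H207.Fp.progP).map (Lens.idL _)
    (ip A.Tape A₀.Tape .res .dat ρM νM)

theorem run_midQ (hA₀ : Multiplies A₀) (hD : (dimR l W h p w).Ok) (hwp : w < p)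
    (dat clk opY : Zip (Al A A₀)) (x : List Bool) (hx : H207.Fp.InM (dimR l W h p w) x) :
    Prog.Run (dd A A₀) (midQ A A₀)
      (sto (sB l W h n p w dat clk (nl A A₀) opY (bw A A₀ x)))
      (155 * ((dimR l W h p w).K * ((dimR l W h p w).Q * ((dimR l W h p w).G *
        (2 * (dimR l W h p w).X * ((dimR l W h p w).E * wcost A₀ W))))))
      (sto (sB l W h n p w dat clk (bw A A₀ (midBits (dimR l W h p w) x)) opY (bw A A₀ x))) := by
  have h1 := H207.Fp.run_mid (d := dd A A₀) (M := Mem A A₀) (F := LF A.Tape A₀.Tape) hA₀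
    (lE A A₀ H207.Fp.RR VV) (fun _ => rfl) .u .k (by simp) (mem := (mem0 A, mem0 A₀)) rfl
    (dimR l W h p w) hD Nat.one_le_two_pow hwp
    (fun r => vB l W h (p - 1) (ρM r)) (rulM l W h p w) (fun _ => w) rfl x hx
    (ι := ip A.Tape A₀.Tape .res .opX ρM νM) (ip_inj rfl rfl (by simp) ρM_inj νM_inj
      (by intro r; cases r <;> simp [ρM]) (by intro r; cases r <;> simp [ρM])
      (by intro r; cases r <;> simp [νM]) (by intro r; cases r <;> simp [νM]))
    (zst .u (sB l W h n p w dat clk (nl A A₀) opY (bw A A₀ x)))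
    (wInit_zst (W := W) (p := p) (μ := 2 ^ W / p + 1) H207.Fp.scr H207.Fp.progM
      (sB l W h n p w dat clk (nl A A₀) opY (bw A A₀ x)) rfl rfl rfl rfl
      (fun _ => w) (by
        intro i
        cases i <;> simp [sB, zA, νM, H207.Fp.scr]) x rfl rfl)
  rw [show ip A.Tape A₀.Tape .res .opX ρM νM (WF.out : WF H207.Fp.RR VV A₀.Tape) = lz .opX
    from rfl, zst_opX] at h1
  exact h1

theorem run_postQ (hA₀ : Multiplies A₀) (hD : (dimR l W h p w).Ok) (hwp : w < p)
    (clk opX opY : Zip (Al A A₀)) (x : List Bool) (hx : H207.Fp.InP (dimR l W h p w) x) :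
    Prog.Run (dd A A₀) (postQ A A₀)
      (sto (sB l W h n p w (nl A A₀) clk opX opY (bw A A₀ x)))
      (205 * ((dimR l W h p w).K * ((dimR l W h p w).Q * ((dimR l W h p w).G *
        (2 * (dimR l W h p w).X * ((dimR l W h p w).E * wcost A₀ W))))))
      (sto (sB l W h n p w (bw A A₀ (postBits (dimR l W h p w) x)) clk opX opY (bw A A₀ x))) := by
  have h1 := H207.Fp.run_post (d := dd A A₀) (M := Mem A A₀) (F := LF A.Tape A₀.Tape) hA₀
    (lE A A₀ H207.Fp.RR VV) (fun _ => rfl) .u .k (by simp) (mem := (mem0 A, mem0 A₀)) rfl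
    (dimR l W h p w) hD Nat.one_le_two_pow hwp
    (fun r => vB l W h (p - 1) (ρM r)) (rulM l W h p w) (fun _ => w) rfl x hx
    (ι := ip A.Tape A₀.Tape .res .dat ρM νM) (ip_inj rfl rfl (by simp) ρM_inj νM_inj
      (by intro r; cases r <;> simp [ρM]) (by intro r; cases r <;> simp [ρM])
      (by intro r; cases r <;> simp [νM]) (by intro r; cases r <;> simp [νM]))
    (zst .u (sB l W h n p w (nl A A₀) clk opX opY (bw A A₀ x)))
    (wInit_zst (W := W) (p := p) (μ := 2 ^ W / p + 1) H207.Fp.scr H207.Fp.progP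
      (sB l W h n p w (nl A A₀) clk opX opY (bw A A₀ x)) rfl rfl rfl rfl
      (fun _ => w) (by
        intro i
        cases i <;> simp [sB, zA, νM, H207.Fp.scr]) x rfl rfl)
  rw [show ip A.Tape A₀.Tape .res .dat ρM νM (WF.out : WF H207.Fp.RR VV A₀.Tape) = lz .dat
    from rfl, zst_dat] at h1
  exact h1

omit [DecidableEq (Al A A₀)] in
/-- A multiplication by `A`, the clock is emptied. -/
theorem run_mulB (hA : Multiplies A) (hn : 1 ≤ n) {x y : List Bool}
    (hx : x.length ≤ n) (hy : y.length ≤ n) (dat : Zip (Al A A₀)) :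
    Prog.Run (dd A A₀)
      (.seq ((env1 A A₀ (cA A.Tape A₀.Tape) cA_inj).mulP (lz .nr)) (clr (lz .clk)))
      (sto (sB l W h n p w dat (nl A A₀) (bw A A₀ x) (bw A A₀ y) (nl A A₀)))
      ((callC A + 30) * (mulTime A n + n) + 2)
      (sto (sB l W h n p w dat (nl A A₀) (nl A A₀) (nl A A₀) (bw A A₀ (mulBits n x y)))) := by
  obtain ⟨T', hT', hrun⟩ := run_mulA hA (sB l W h n p w dat (nl A A₀) (bw A A₀ x) (bw A A₀ y)
    (nl A A₀)) hn hx hy rfl rfl rfl rfl
  have h2 := run_clr (d := dd A A₀) (lz .clk : LF A.Tape A₀.Tape) (mem0 A, mem0 A₀)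
    (zst .u { (sB l W h n p w dat (nl A A₀) (bw A A₀ x) (bw A A₀ y) (nl A A₀)) with
        opX := ⟨[], []⟩
        opY := ⟨[], []⟩
        res := bw A A₀ (mulBits n x y)
        clk := ⟨List.replicate T' .u, []⟩ })
  rw [zst_clk] at h2
  refine (hrun.seq h2).mono (Nat.add_le_add_right (Nat.mul_le_mul_left _ ?_) 2)
  exact Nat.add_le_add_right hT' n

end Vale.Agent.P338.R2.H784.Fp
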