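import Vale.Agent.P338.R2.H784.Alpha

/-!
P338, stage 2: the alphabet and the memory for calls of two machines.
-/

namespace Vale.Agent.P338.R2.H784.Fp

open Vale.Agent.P338.R2.H898
open Vale.Agent.P338.R2.H968

/-- The memory for the calls of two machines. -/
abbrev Mem (A A₀ : MTM) : Type := CallMem A × CallMem A₀

/-- The alphabet for the calls of two machines. -/
abbrev Al (A A₀ : MTM) : Type := Sy (A.Sym ⊕ A₀.Sym)

/-- The default symbol. -/
abbrev dd (A A₀ : MTM) : Al A A₀ := .a (.inl A.blank)

/-- The symbol of `A` encoded by a symbol. -/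
def dec1 (A A₀ : MTM) : Al A A₀ → A.Sym
  | .a (.inl x) => x
  | _ => A.blank

/-- The symbol of `A₀` encoded by a symbol. -/
def dec2 (A A₀ : MTM) : Al A A₀ → A₀.Sym
  | .a (.inr x) => x
  | _ => A₀.blank

/-- The environment of the calls of `A`. -/
def env1 (A A₀ : MTM) {F : Type} (file : A.Tape ⊕ CFile → F) (hfile : Function.Injective file) :
    CallEnv A (Mem A A₀) F (Al A A₀) (dd A A₀) where
  file := file
  file_inj := hfile
  enc := fun x => .a (.inl x)
  dec := dec1 A A₀
  dec_enc := fun _ => rfl
  dec_d := rfl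
  bit := fun b => .l (bitL b)
  unbit := Sy.unbit
  unbit_bit := by
    intro b
    cases b <;> rfl
  mark := .u
  get := Prod.fst
  put := fun x m => (x, m.2)
  get_put := fun _ _ => rfl
  put_put := fun _ _ _ => rfl

/-- The environment of the calls of `A₀`. -/
def env2 (A A₀ : MTM) {F : Type} (file : A₀.Tape ⊕ CFile → F) (hfile : Function.Injective file) :
    CallEnv A₀ (Mem A A₀) F (Al A A₀) (dd A A₀) where
  file := file
  file_inj := hfile
  enc := fun x => .a (.inr x)
  dec := dec2 A A₀
  dec_enc := fun _ => rfl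
  dec_d := rfl
  bit := fun b => .l (bitL b)
  unbit := Sy.unbit
  unbit_bit := by
    intro b
    cases b <;> rfl
  mark := .u
  get := Prod.snd
  put := fun x m => (m.1, x)
  get_put := fun _ _ => rfl
  put_put := fun _ _ _ => rfl

end Vale.Agent.P338.R2.H784.Fp
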