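import Vale.Agent.P338.R2.H784.Fp.Top2
import Vale.Agent.P338.R2.H784.Fp.Alpha2

/-!
P338, stage 2: from the programs of the parts to the Turing machine for the transposition.
-/

namespace Vale.Agent.P338.R2.H784.Fp

open Vale.Agent.P338.R2.H898
open Vale.Agent.P338.R2.H968
open Vale.Agent.P338.R2.H784

set_option linter.unusedSectionVars false

open Vale.Agent.P338.R2.H101 (Ph CostK)

theorem tot_mono {l T N c1 c2 c : ℕ} (h1 : c1 ≤ c) (h2 : c2 ≤ c) {h t : ℕ}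
    (ht : H778.Tot l T c1 c2 N h t) : ∃ t' ≥ t, H778.Tot l T c c N h t' := by
  induction ht with
  | base h hh =>
    refine ⟨_, ?_, .base h hh⟩
    exact Nat.mul_le_mul_right _ (Nat.mul_le_mul_right _ h2)
  | stop h Ti h4 hTi hbig =>
    refine ⟨_, ?_, .stop h Ti h4 hTi hbig⟩
    exact Nat.add_le_add (Nat.mul_le_mul_right _ h1)
      (Nat.mul_le_mul_right _ (Nat.mul_le_mul_right _ h2))
  | step h Ti t2 h4 hTi hsmall _ ih =>
    obtain ⟨t', ht', ht''⟩ := ih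
    refine ⟨_, ?_, .step h Ti t' h4 hTi hsmall ht''⟩
    exact Nat.add_le_add (Nat.mul_le_mul_right _ h1) ht'

theorem machine_of_specs2 {A A₀ : MTM} {C₀ ρ : ℕ} {M F α : Type} [Finite M] [Fintype F]
    [DecidableEq F] [Finite α] [DecidableEq α] {d u : α} {enc : Letter → α} {dl : α → Letter}
    (hdl : ∀ a, dl (enc a) = a) (m0 : M) {j : TF → F} (hj : Function.Injective j)
    {RR : Store M F α → Prop}
    (hRR : ∀ s s' : Store M F α, RR s → s'.m = s.m → (∀ f, (∀ x, f ≠ j x) → s'.z f = s.z f) →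
      RR s')
    (hRR0 : ∀ s : Store M F α, s.m = m0 → (∀ f, (∀ x, f ≠ j x) → s.z f = ⟨[], []⟩) → RR s)
    {rd nrp f2 : Prog M F α} {c1 cn c2 k : ℕ}
    (hround : RoundSpec d u (fun b => enc (bitL b)) j rd RR (fun n => 2 * mulTime A n) c1)
    (hf2 : F2Spec k d u (fun b => enc (bitL b)) j f2 RR (mulTime A) (mulTime A₀) c2)
    (hnr : NrSpec d u j nrp (NN C₀ ρ) cn) :
    ∃ B : MTM, ∃ c : ℕ, ∀ r s : ℕ, 1 ≤ r → 1 ≤ s → ∀ N : Fin r → Fin s → Bool,
      B.Computes (matWord N) (matWord fun a b => N b a) ∧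
      CostK k A A₀ (NN C₀ ρ (ex r s) r s) (ex r s) c (B.time (matWord N)) := by
  have henc : Function.Injective enc := fun a b h => by rw [← hdl a, ← hdl b, h]
  obtain ⟨B, hB⟩ := Comp.machine (M := M) (F := F) (α := α) d enc dl hdl m0 (j .fin) (j .fout)
    (topProg2 j enc u rd nrp f2)
  refine ⟨B, max ((8 * cn + 2000) * (c2 + 1)) (c1 + 36), fun r s hr hs N => ?_⟩
  obtain ⟨t, t2, h', V, s', hPh, ht2, ht, hrun, hout⟩ := run_top2 (d := d) (u := u) henc hj hRR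
    hRR0 hround hf2 hnr (fun l r s => le_max_right _ _) hr hs N (l := ex r s) rfl
  obtain ⟨h1, h2⟩ := hB (matWord N) (matWord fun a b => N b a) _ s' hrun hout
  have e11 : (8 * cn + 2000) * (c2 + 1) ≤ max ((8 * cn + 2000) * (c2 + 1)) (c1 + 36) :=
    le_max_left _ _
  have e12 : 2000 * (c2 + 1) ≤ (8 * cn + 2000) * (c2 + 1) := by nlinarith
  obtain ⟨t', htt', ht'⟩ := tot_mono (c := max ((8 * cn + 2000) * (c2 + 1)) (c1 + 36))
    (le_max_right _ _) (by omega) ht.conv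
  refine ⟨h1, ⟨t', h', V, Ph.mono hPh (by omega), Ph.le hPh, ht', h2.trans ?_⟩⟩
  have e1 := length_matWord_le hr N
  have e2 := length_matWord_le hs (fun a b => N b a)
  have e3 : r ≤ 2 ^ ex r s := le_two_pow_ex_left r s
  have e4 : s ≤ 2 ^ ex r s := le_two_pow_ex_right r s
  have e5 : (4 : ℕ) ^ ex r s = 2 ^ ex r s * 2 ^ ex r s := by
    rw [← mul_pow]
    norm_num
  have e6 : 1 ≤ 2 ^ ex r s := Nat.one_le_two_pow
  have e7 : r * (s + 1) ≤ 2 * 4 ^ ex r s := by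
    rw [e5]
    calc r * (s + 1) ≤ 2 ^ ex r s * (2 ^ ex r s + 2 ^ ex r s) :=
          Nat.mul_le_mul e3 (by omega)
      _ = 2 * (2 ^ ex r s * 2 ^ ex r s) := by ring
  have e8 : s * (r + 1) ≤ 2 * 4 ^ ex r s := by
    rw [e5]
    calc s * (r + 1) ≤ 2 ^ ex r s * (2 ^ ex r s + 2 ^ ex r s) :=
          Nat.mul_le_mul e4 (by omega)
      _ = 2 * (2 ^ ex r s * 2 ^ ex r s) := by ring
  have e9 : 1 ≤ 4 ^ ex r s := Nat.one_le_pow _ _ (by norm_num)
  set D := 4 ^ ex r s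
  set n := NN C₀ ρ (ex r s) r s
  have e10 : 8 * (t + t2 + (cn + 140) * D) + 4 * (matWord N).length +
      2 * (matWord fun a b => N b a).length + 13 ≤
      8 * t + 8 * t2 + (8 * cn + 1120 + 12 + 13) * D := by
    nlinarith
  refine e10.trans ((le_trans ?_ (Nat.mul_le_mul_right _ e11)))
  set Z := mulTime A n + n + D + V with hZ
  have e13 : t' + mulTime A n + D + n + V = t' + Z := by
    rw [hZ]
    ring
  rw [e13]
  have e14 : D ≤ Z := by
    rw [hZ]
    omega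
  have e15 : (8 * cn + 1120 + 12 + 13) * D ≤ (8 * cn + 1145) * Z := Nat.mul_le_mul_left _ e14
  have e16 : (8 * cn + 2000) * (c2 + 1) * (t' + Z) = (8 * cn + 2000) * t' + (8 * cn + 2000) * Z +
      c2 * (8 * cn + 2000) * t' + 8 * cn * (c2 * Z) + 2000 * (c2 * Z) := by ring
  have e17 : 8 * t ≤ (8 * cn + 2000) * t' := by nlinarith
  have e18 : (8 * cn + 1145) * Z ≤ (8 * cn + 2000) * Z := by nlinarith
  rw [e16]
  omega

end Vale.Agent.P338.R2.H784.Fp
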