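import Vale.Agent.P338.R2.H784.Fp.PhaseF

/-!
P338, stage 2: a phase in the files of the complete program.
-/

namespace Vale.Agent.P338.R2.H784.Fp

open Vale.Agent.P338.R2.H898
open Vale.Agent.P338.R2.H968
open Vale.Agent.P338.R2.H784
open Vale.Agent.P338.R2.H968.CallEnv (mem0 callC)
open Vale.Agent.P338.R2.H525 (dBits)
open Vale.Agent.P338.R2.H778.FpW (PN vI)

/-- The embedding of the files of a phase. -/
def emb (T T₀ : Type) : LF T T₀ → FF T (T₀ ⊕ ZF)
  | .inl i => io T _ (.inl i)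
  | .inr (.inl i) => .inr (.inl i)
  | .inr (.inr .dat) => io T _ (.inr .dat)
  | .inr (.inr .clk) => io T _ (.inr .clk)
  | .inr (.inr .nr) => io T _ (.inr (.r .nr))
  | .inr (.inr (.r .el)) => io T _ (.inr (.r .el))
  | .inr (.inr (.r .hh)) => io T _ (.inr (.r .hh))
  | .inr (.inr z) => .inr (.inr z)

theorem emb_inj (T T₀ : Type) : Function.Injective (emb T T₀) := by
  intro a b hab
  rcases a with i | i | (_ | _ | _ | _ | _ | _ | k | k | k | k) <;>
    rcases b with i' | i' | (_ | _ | _ | _ | _ | _ | k' | k' | k' | k') <;>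
    (try cases k) <;> (try cases k') <;> simp_all [emb, io]

/-- The files of the program outside the phase. -/
theorem emb_jj2 {T T₀ : Type} {x : TF} (h : x ≠ .dat) (h1 : x ≠ .clk) (h2 : x ≠ .nr)
    (h3 : x ≠ .el) (h4 : x ≠ .hh) (f : LF T T₀) : emb T T₀ f ≠ jj2 T (T₀ ⊕ ZF) x := by
  rcases f with i | i | (_ | _ | _ | _ | _ | _ | k | k | k | k) <;> (try cases k) <;>
    cases x <;> simp_all [emb, io, jj2, jj]

theorem emb_io {T T₀ : Type} {g : LF T T₀} {f : T ⊕ RF}
    (h : emb T T₀ g = io T (T₀ ⊕ ZF) f) : shared f ∨ ∃ i, f = .inl i := by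
  rcases g with i | i | (_ | _ | _ | _ | _ | _ | k | k | k | k)
  · exact .inr ⟨i, (io_inj _ _ h).symm⟩
  · simp [emb, io] at h
  · exact .inl (io_inj _ _ h ▸ trivial)
  · exact .inl (io_inj _ _ h ▸ trivial)
  · simp [emb, io] at h
  · simp [emb, io] at h
  · simp [emb, io] at h
  · exact .inl (io_inj _ _ h ▸ trivial)
  · cases k
    case el => exact .inl (io_inj _ _ h ▸ trivial)
    case hh => exact .inl (io_inj _ _ h ▸ trivial)
    all_goals simp [emb, io] at h
  · simp [emb, io] at h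
  · simp [emb, io] at h
  · simp [emb, io] at h

theorem vI_zero {l h : ℕ} {k : PN} (h1 : k ≠ .el) (h2 : k ≠ .hh) : vI l h k = 0 := by
  cases k <;> first | rfl | exact absurd rfl h1 | exact absurd rfl h2

/-- The additional files are empty. -/
theorem emb_inr {T T₀ α : Type} {u : α} {g : LF T T₀} {y : T₀ ⊕ ZF} {S : ZS α}
    (h : emb T T₀ g = .inr y) (h1 : S.opX = ⟨[], []⟩) (h2 : S.opY = ⟨[], []⟩)
    (h3 : S.res = ⟨[], []⟩) (h4 : ∀ k, k ≠ .el → k ≠ .hh → S.r k = 0)
    (h5 : ∀ k, S.w k = ⟨[], []⟩) : zst u S g = ⟨[], []⟩ := by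
  rcases g with i | i | (_ | _ | _ | _ | _ | _ | k | k | k | k)
  · rfl
  · rfl
  · simp [emb, io] at h
  · simp [emb, io] at h
  · exact h1
  · exact h2
  · exact h3
  · simp [emb, io] at h
  · have h6 : k ≠ .el := by
      rintro rfl
      simp [emb, io] at h
    have h7 : k ≠ .hh := by
      rintro rfl
      simp [emb, io] at h
    show ru u (S.r k) = _
    rw [h4 k h6 h7]
    rfl
  · exact h5 k
  · rfl
  · rfl

open Classical in
/-- **A phase in the files of the complete program.** -/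
theorem phSpec {A A₀ : MTM} (hA : Multiplies A) (hA₀ : Multiplies A₀)
    [DecidableEq (FF A.Tape (A₀.Tape ⊕ ZF))] :
    PhSpec (dd A A₀) .u (fun b => Sy.l (bitL b)) (jj2 A.Tape (A₀.Tape ⊕ ZF))
      ((phaseQ A A₀).map (Lens.idL _) (emb A.Tape A₀.Tape)) (RQ2 A A₀ (A₀.Tape ⊕ ZF))
      (mulTime A) (mulTime A₀) (cP A A₀ + 1152) := by
  intro l h n X s hn hl hel hhh hnr hdat hclk hR
  obtain ⟨hm, hz, hy⟩ := hR
  obtain ⟨t, h', K, hK, ht, hh1, hh2, hh3, hrun⟩ := phase_run (A := A) (A₀ := A₀) (h := h)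
    hA hA₀ hl hn X
  refine ⟨t, h', K, hK, ht, hh1, hh2, hh3, ?_⟩
  have hrun' := hrun.map (L := Lens.idL (Mem A A₀)) (ι := emb A.Tape A₀.Tape) (emb_inj _ _)
    (S := s) (by
      unfold Store.pull
      simp only [Lens.idL, Store.mk.injEq]
      refine ⟨hm, ?_⟩
      funext f
      rcases f with i | i | (_ | _ | _ | _ | _ | _ | k | k | k | k)
      · exact hz (.inl i) (by simp [shared])
      · exact hy _
      · exact hdat
      · exact hclk.eq_nil
      · exact hy _
      · exact hy _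
      · exact hy _
      · exact hnr
      · cases k
        case el => exact hel
        case hh => exact hhh
        all_goals exact hy _
      · exact hy _
      · exact hy _
      · exact hy _)
  refine Tri.of_run hrun' ?_
  set S1 := Store.put (Lens.idL (Mem A A₀)) (emb A.Tape A₀.Tape) s
    (sto (sI A A₀ l h' n (bw A A₀ (dBits l h' X)))) with hS1
  have hz1 : ∀ f : LF A.Tape A₀.Tape, S1.z (emb A.Tape A₀.Tape f) =
      zst .u (sI A A₀ l h' n (bw A A₀ (dBits l h' X))) f := fun f =>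
    Store.put_z_apply (emb_inj _ _) _ _ f
  have hgen : ∀ f, (∀ g, emb A.Tape A₀.Tape g ≠ f) → S1.z f = s.z f := fun f hf =>
    Store.put_z_of_notMem _ _ hf
  refine ⟨hz1 (lz .dat), hz1 (lz (.r .hh)), ?_, ?_, ?_, ?_, ?_⟩
  · exact (hz1 (lz .clk)).trans rfl
  · intro x e1 e2 e3
    by_cases e4 : x = .nr
    · subst e4
      exact (hz1 (lz .nr)).trans hnr.symm
    by_cases e5 : x = .el
    · subst e5
      exact (hz1 (lz (.r .el))).trans hel.symm
    exact hgen _ (emb_jj2 e1 e3 e4 e5 e2)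
  · rfl
  · intro f hf
    by_cases hf2 : ∃ i, f = .inl i
    · obtain ⟨i, rfl⟩ := hf2
      exact hz1 (.inl i)
    · rw [hgen _ fun g hg => ?_]
      · exact hz _ hf
      · rcases emb_io hg with h | h
        · exact hf h
        · exact hf2 h
  · intro y
    by_cases hy2 : ∃ f, emb A.Tape A₀.Tape f = .inr y
    · obtain ⟨f, hf⟩ := hy2
      rw [← hf, hz1 f]
      exact emb_inr hf rfl rfl rfl (fun k h1 h2 => vI_zero h1 h2) (fun _ => rfl)
    · rw [hgen _ fun g hg => hy2 ⟨g, hg⟩]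
      exact hy y

/-- **The reduction with `k` phases.** -/
theorem costK {A A₀ : MTM} (hA : Multiplies A) (hA₀ : Multiplies A₀) (k ρ : ℕ) :
    ∃ B : MTM, Transposes B ∧ ∃ c : ℕ, ∀ r s : ℕ, 1 ≤ r → 1 ≤ s → Near r s →
      ∀ N : Fin r → Fin s → Bool,
        H101.CostK k A A₀ (18432 * H898.mu r s + ρ) (ex r s) c (B.time (matWord N)) := by
  have := A₀.finTape
  refine costK_of_ph (Y := A₀.Tape ⊕ ZF) hA ?_ k ρ
  intro inst
  exact ⟨_, _, phSpec hA hA₀⟩

end Vale.Agent.P338.R2.H784.Fp
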