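import Vale.Agent.P338.R2.H784.Fp.RoundOld
import Vale.Agent.P338.R2.H525.Fp.RoundW
import Vale.Agent.P338.R2.H778.Fp.PrepW
import Vale.Agent.P338.R2.H898.XPass

/-!
P338, stage 2: the files of the rounds over `F_p`.
-/

namespace Vale.Agent.P338.R2.H784.Fp

open Vale.Agent.P338.R2.H898
open Vale.Agent.P338.R2.H968
open Vale.Agent.P338.R2.H784
open Vale.Agent.P338.R2.H968.CallEnv (mem0 callC)
open Vale.Agent.P338.R2.H525 (dBits mulBits)
open Vale.Agent.P338.R2.H778.FpW (PN)
open Function (update)

/-- Words: the constants `w`, `p`, `μ`, and scratch registers. -/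
inductive WN
  | w | p | mu
  | s (i : Fin 12)
  deriving DecidableEq

/-- Scratch files of the search. -/
inductive GN
  | P | D | W | E | C | V | V2 | B | PO | WO
  deriving DecidableEq

/-- The files other than the tapes of the two machines. -/
inductive ZF
  | dat | clk | opX | opY | res | nr
  | r (k : PN)
  | w (k : WN)
  | c (k : CFile)
  | g (k : GN)
  deriving DecidableEq

instance : Finite ZF := by
  have h1 : Finite CFile := by
    let g : CFile → Fin 4 := fun
      | .opX => 0
      | .opY => 1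
      | .clk => 2
      | .res => 3
    refine Finite.of_injective g ?_
    intro a b h
    cases a <;> cases b <;> simp_all [g]
  have h2 : Finite GN := by
    let g : GN → Fin 10 := fun
      | .P => 0
      | .D => 1
      | .W => 2
      | .E => 3
      | .C => 4
      | .V => 5
      | .V2 => 6
      | .B => 7
      | .PO => 8
      | .WO => 9
    refine Finite.of_injective g ?_
    intro a b h
    cases a <;> cases b <;> simp_all [g]
  have h3 : Finite WN := by
    let g : WN → Fin 3 ⊕ Fin 12 := fun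
      | .w => .inl 0
      | .p => .inl 1
      | .mu => .inl 2
      | .s i => .inr i
    refine Finite.of_injective g ?_
    intro a b h
    cases a <;> cases b <;> simp_all [g]
  let f : ZF → (Fin 6 ⊕ PN) ⊕ (WN ⊕ (CFile ⊕ GN)) := fun
    | .dat => .inl (.inl 0)
    | .clk => .inl (.inl 1)
    | .opX => .inl (.inl 2)
    | .opY => .inl (.inl 3)
    | .res => .inl (.inl 4)
    | .nr => .inl (.inl 5)
    | .r k => .inl (.inr k)
    | .w k => .inr (.inl k)
    | .c k => .inr (.inr (.inl k))
    | .g k => .inr (.inr (.inr k))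
  refine Finite.of_injective f ?_
  intro x y h
  cases x <;> cases y <;> simp_all [f]

/-- All files: tapes of `A`, tapes of `A₀`, the others. -/
abbrev LF (T T₀ : Type) : Type := T ⊕ (T₀ ⊕ ZF)

/-- A file that is neither a tape of `A` nor of `A₀`. -/
abbrev lz {T T₀ : Type} (f : ZF) : LF T T₀ := .inr (.inr f)

theorem lz_inj {T T₀ : Type} : Function.Injective (lz : ZF → LF T T₀) := fun a b h => by
  simpa [lz] using h

/-- The contents of the files. -/
structure ZS (α : Type) where
  dat : Zip α
  clk : Zip α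
  opX : Zip α
  opY : Zip α
  res : Zip α
  /-- `n` -/
  n : ℕ
  /-- rulers -/
  r : PN → ℕ
  /-- words -/
  w : WN → Zip α

variable {T T₀ α : Type} {u : α}

/-- A ruler. -/
def ru (u : α) (n : ℕ) : Zip α := ⟨[], List.replicate n u⟩

theorem ru_zero : ru u 0 = ⟨[], []⟩ := rfl

/-- The files. -/
def zst (u : α) (S : ZS α) : LF T T₀ → Zip α
  | .inl _ => ⟨[], []⟩
  | .inr (.inl _) => ⟨[], []⟩
  | .inr (.inr .dat) => S.dat
  | .inr (.inr .clk) => S.clk
  | .inr (.inr .opX) => S.opX
  | .inr (.inr .opY) => S.opY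
  | .inr (.inr .res) => S.res
  | .inr (.inr .nr) => ru u S.n
  | .inr (.inr (.r k)) => ru u (S.r k)
  | .inr (.inr (.w k)) => S.w k
  | .inr (.inr (.c _)) => ⟨[], []⟩
  | .inr (.inr (.g _)) => ⟨[], []⟩

section upd

variable [DecidableEq (LF T T₀)] {S : ZS α} {x : Zip α}

theorem zst_dat : update (zst (T := T) (T₀ := T₀) u S) (lz .dat) x =
    zst u { S with dat := x } := by
  funext f
  rcases f with i | i | (_ | _ | _ | _ | _ | _ | _ | _ | _ | _) <;>
    simp [zst, lz, Function.update]

theorem zst_clk : update (zst (T := T) (T₀ := T₀) u S) (lz .clk) x =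
    zst u { S with clk := x } := by
  funext f
  rcases f with i | i | (_ | _ | _ | _ | _ | _ | _ | _ | _ | _) <;>
    simp [zst, lz, Function.update]

theorem zst_opX : update (zst (T := T) (T₀ := T₀) u S) (lz .opX) x =
    zst u { S with opX := x } := by
  funext f
  rcases f with i | i | (_ | _ | _ | _ | _ | _ | _ | _ | _ | _) <;>
    simp [zst, lz, Function.update]

theorem zst_opY : update (zst (T := T) (T₀ := T₀) u S) (lz .opY) x =
    zst u { S with opY := x } := by
  funext f
  rcases f with i | i | (_ | _ | _ | _ | _ | _ | _ | _ | _ | _) <;>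
    simp [zst, lz, Function.update]

theorem zst_res : update (zst (T := T) (T₀ := T₀) u S) (lz .res) x =
    zst u { S with res := x } := by
  funext f
  rcases f with i | i | (_ | _ | _ | _ | _ | _ | _ | _ | _ | _) <;>
    simp [zst, lz, Function.update]

theorem zst_r (k : PN) (n : ℕ) : update (zst (T := T) (T₀ := T₀) u S) (lz (.r k)) (ru u n) =
    zst u { S with r := update S.r k n } := by
  funext f
  by_cases hf : f = lz (.r k)
  · subst hf
    simp [zst, lz]
  · rw [Function.update_of_ne hf]
    rcases f with i | i | (_ | _ | _ | _ | _ | _ | k' | _ | _ | _)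
    case inr.inr.r =>
      have h : k' ≠ k := fun h => hf (by rw [h])
      simp [zst, Function.update_of_ne h]
    all_goals rfl

theorem zst_w (k : WN) : update (zst (T := T) (T₀ := T₀) u S) (lz (.w k)) x =
    zst u { S with w := update S.w k x } := by
  funext f
  by_cases hf : f = lz (.w k)
  · subst hf
    simp [zst, lz]
  · rw [Function.update_of_ne hf]
    rcases f with i | i | (_ | _ | _ | _ | _ | _ | _ | k' | _ | _)
    case inr.inr.w =>
      have h : k' ≠ k := fun h => hf (by rw [h])
      simp [zst, Function.update_of_ne h]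
    all_goals rfl

/-- A program on the rulers. -/
theorem run_of_rp {M : Type} {d : α} {p : Prog M (LF T T₀) α} {v v' : PN → ℕ} {c : ℕ}
    (h : H778.Fp.RP d u (fun k : PN => (lz (.r k) : LF T T₀)) p v c v') (hS : S.r = v) (m : M) :
    Prog.Run d p ⟨m, zst u S⟩ c ⟨m, zst u { S with r := v' }⟩ := by
  subst hS
  obtain ⟨s', hrun, h1, h2, h3⟩ := h ⟨m, zst u S⟩ (fun x => rfl)
  have e : s' = ⟨m, zst u { S with r := v' }⟩ := by
    rcases s' with ⟨m', z'⟩
    obtain rfl : m' = m := h2
    congr 1
    funext f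
    by_cases hf : ∃ k, f = lz (.r k)
    · obtain ⟨k, rfl⟩ := hf
      exact (h1 k).trans rfl
    · have h4 := h3 f fun x hx => hf ⟨x, hx⟩
      refine h4.trans ?_
      rcases f with i | i | (_ | _ | _ | _ | _ | _ | k' | _ | _ | _)
      case inr.inr.r => exact absurd ⟨k', rfl⟩ hf
      all_goals rfl
  rw [e] at hrun
  exact hrun

end upd

section calls

/-- The files of a call of `A`. -/
def cA (T T₀ : Type) : T ⊕ CFile → LF T T₀
  | .inl i => .inl i
  | .inr .opX => lz .opX
  | .inr .opY => lz .opY
  | .inr .clk => lz .clk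
  | .inr .res => lz .res

theorem cA_inj : Function.Injective (cA T T₀) := by
  intro a b hab
  rcases a with a | (_ | _ | _ | _) <;> rcases b with b | (_ | _ | _ | _) <;>
    first | rfl | (simp [cA, lz] at hab)
  exact congrArg _ hab

/-- The files of a call of `A₀`. -/
def c0 (T T₀ : Type) : T₀ ⊕ CFile → LF T T₀
  | .inl i => .inr (.inl i)
  | .inr k => lz (.c k)

theorem c0_inj : Function.Injective (c0 T T₀) := by
  intro a b hab
  rcases a with a | a <;> rcases b with b | b <;> simp_all [c0, lz]

variable {A A₀ : MTM} [DecidableEq (LF A.Tape A₀.Tape)]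

/-- The bits. -/
abbrev bt {A A₀ : MTM} (b : Bool) : Al A A₀ := Sy.l (bitL b)

/-- A file with the bits `x`. -/
abbrev bw (A A₀ : MTM) (x : List Bool) : Zip (Al A A₀) := ⟨[], x.map bt⟩

/-- A multiplication by `A`. -/
theorem run_mulA (hA : Multiplies A) (S : ZS (Al A A₀)) (hn : 1 ≤ S.n) {x y : List Bool}
    (hx : x.length ≤ S.n) (hy : y.length ≤ S.n)
    (hX : S.opX = bw A A₀ x) (hY : S.opY = bw A A₀ y) (hc : S.clk = ⟨[], []⟩)
    (hr : S.res = ⟨[], []⟩) :
    ∃ T' ≤ mulTime A S.n, Prog.Run (dd A A₀)
      ((env1 A A₀ (cA A.Tape A₀.Tape) cA_inj).mulP (lz .nr)) ⟨(mem0 A, mem0 A₀), zst .u S⟩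
      ((callC A + 30) * (T' + S.n))
      ⟨(mem0 A, mem0 A₀), zst .u { S with
        opX := ⟨[], []⟩
        opY := ⟨[], []⟩
        res := bw A A₀ (mulBits S.n x y)
        clk := ⟨List.replicate T' .u, []⟩ }⟩ := by
  classical
  have hlen : (List.replicate S.n (Sy.u : Al A A₀)).length = S.n := by simp
  obtain ⟨T', hT', hrun⟩ := (env1 A A₀ (cA A.Tape A₀.Tape) cA_inj).run_mulP (x := x) (y := y)
    (u := []) (NR := List.replicate S.n (Sy.u : Al A A₀)) (nr := lz .nr) hA
    (by
      intro i
      rcases i with i | (_ | _ | _ | _) <;> simp [env1, cA, lz])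
    (by rw [hlen]; exact hn) (by rw [hlen]; exact hx) (by rw [hlen]; exact hy)
    (mem0 A, mem0 A₀) (zst .u S) (fun _ => rfl) (by exact hX) (by exact hY)
    (by
      show S.clk = _
      rw [hc]) (by exact hr) rfl
  rw [hlen] at hT' hrun
  refine ⟨T', hT', ?_⟩
  have e1 : (env1 A A₀ (cA A.Tape A₀.Tape) cA_inj).file (.inr .opX) = lz .opX := rfl
  have e2 : (env1 A A₀ (cA A.Tape A₀.Tape) cA_inj).file (.inr .opY) = lz .opY := rfl
  have e3 : (env1 A A₀ (cA A.Tape A₀.Tape) cA_inj).file (.inr .res) = lz .res := rfl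
  have e4 : (env1 A A₀ (cA A.Tape A₀.Tape) cA_inj).file (.inr .clk) = lz .clk := rfl
  rw [e1, e2, e3, e4] at hrun
  rw [zst_opX, zst_opY, zst_res, zst_clk] at hrun
  simp only [List.append_nil] at hrun
  exact hrun

end calls

end Vale.Agent.P338.R2.H784.Fp
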