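import Vale.Agent.P338.R2.H784.Fp.Files
import Vale.Agent.P338.R2.H207.Fp.Run
import Vale.Agent.P338.R2.H806.Fp.PackP
import Vale.Agent.P338.R2.H525.Fp.KerCost
import Vale.Agent.P338.R2.H968.Setup

/-!
P338, stage 2: the passes of a round on the common files.
-/

namespace Vale.Agent.P338.R2.H784.Fp

open Vale.Agent.P338.R2.H898
open Vale.Agent.P338.R2.H968
open Vale.Agent.P338.R2.H784
open Vale.Agent.P338.R2.H968.CallEnv (mem0 callC)
open Vale.Agent.P338.R2.H525 (dBits mulBits)
open Vale.Agent.P338.R2.H525.Fp (Dim)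
open Vale.Agent.P338.R2.H778 (bits)
open Vale.Agent.P338.R2.H778.FpW (PN)
open Function (update)

/-- The data files. -/
def dz : ZF → Bool
  | .dat => true
  | .opX => true
  | .opY => true
  | .res => true
  | _ => false

/-- The files of a pass. -/
def ip (T T₀ : Type) {R V : Type} (fi fo : ZF) (ρ : R → PN) (ν : V → WN) : WF R V T₀ → LF T T₀
  | .inp => lz fi
  | .out => lz fo
  | .rul r => lz (.r (ρ r))
  | .reg i => lz (.w (ν i))
  | .wid => lz (.r .wd)
  | .wp => lz (.w .p)
  | .wmu => lz (.w .mu)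
  | .wl => lz (.r .L2)
  | .call (.inl i) => .inr (.inl i)
  | .call (.inr k) => lz (.c k)

theorem ip_inj {T T₀ R V : Type} {fi fo : ZF} {ρ : R → PN} {ν : V → WN} (h1 : dz fi = true)
    (h2 : dz fo = true) (h3 : fi ≠ fo) (h4 : Function.Injective ρ) (h5 : Function.Injective ν)
    (h6 : ∀ r, ρ r ≠ .wd) (h6' : ∀ r, ρ r ≠ .L2) (h7 : ∀ i, ν i ≠ .p) (h7' : ∀ i, ν i ≠ .mu) :
    Function.Injective (ip T T₀ fi fo ρ ν) := by
  have e1 : ∀ k, fi ≠ .r k := by rintro k rfl; simp [dz] at h1
  have e2 : ∀ k, fi ≠ .w k := by rintro k rfl; simp [dz] at h1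
  have e3 : ∀ k, fi ≠ .c k := by rintro k rfl; simp [dz] at h1
  have e4 : ∀ k, fo ≠ .r k := by rintro k rfl; simp [dz] at h2
  have e5 : ∀ k, fo ≠ .w k := by rintro k rfl; simp [dz] at h2
  have e6 : ∀ k, fo ≠ .c k := by rintro k rfl; simp [dz] at h2
  intro a b hab
  rcases a with _ | _ | r | i | _ | _ | _ | _ | (i | k) <;>
    rcases b with _ | _ | r' | i' | _ | _ | _ | _ | (i' | k') <;>
    simp only [ip, lz, Sum.inr.injEq, reduceCtorEq, ZF.r.injEq, ZF.w.injEq, ZF.c.injEq,
      Sum.inl.injEq] at hab <;>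
    first
    | rfl
    | exact absurd hab h3
    | exact absurd hab.symm h3
    | exact absurd hab (e1 _)
    | exact absurd hab (e2 _)
    | exact absurd hab (e3 _)
    | exact absurd hab (e4 _)
    | exact absurd hab (e5 _)
    | exact absurd hab (e6 _)
    | exact absurd hab.symm (e1 _)
    | exact absurd hab.symm (e2 _)
    | exact absurd hab.symm (e3 _)
    | exact absurd hab.symm (e4 _)
    | exact absurd hab.symm (e5 _)
    | exact absurd hab.symm (e6 _)
    | exact absurd hab (h6 _)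
    | exact absurd hab.symm (h6 _)
    | exact absurd hab (h6' _)
    | exact absurd hab.symm (h6' _)
    | exact absurd hab (h7 _)
    | exact absurd hab.symm (h7 _)
    | exact absurd hab (h7' _)
    | exact absurd hab.symm (h7' _)
    | rw [h4 hab]
    | rw [h5 hab]
    | rw [hab]

section

variable {A A₀ : MTM}

/-- The environment of the calls of `A₀` in a pass. -/
def lE (A A₀ : MTM) (R V : Type) : CallEnv A₀ (Mem A A₀) (WF R V A₀.Tape) (Al A A₀) (dd A A₀) :=
  locEnv (env2 A A₀ (c0 A.Tape A₀.Tape) c0_inj)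

/-- The initial store of a pass. -/
theorem wInit_zst {R V : Type} [Finite R] [Finite V] [DecidableEq R] [DecidableEq V]
    {fi fo : ZF} {ρ : R → PN} {ν : V → WN} (sc : List V) (a : XP R Bool (WI V)) {W L p μ : ℕ}
    (S : ZS (Al A A₀)) (hwid : S.r .wd = W) (hwl : S.r .L2 = L) (hwp : S.w .p = bw A A₀ (bits W p))
    (hwμ : S.w .mu = bw A A₀ (bits W μ)) (u : V → ℕ)
    (hreg : ∀ i, S.w (ν i) = if i ∈ sc then ⟨[], []⟩ else bw A A₀ (bits W (u i)))
    (w : List Bool) (hin : zst (T := A.Tape) (T₀ := A₀.Tape) .u S (lz fi) = bw A A₀ w)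
    (hout : zst (T := A.Tape) (T₀ := A₀.Tape) .u S (lz fo) = ⟨[], []⟩) :
    WInit (lE A A₀ R V) .u sc a W L p μ (fun r => S.r (ρ r)) u w
      (fun f => zst .u S (ip A.Tape A₀.Tape fi fo ρ ν f)) where
  inp := hin
  out := hout
  rul := fun _ _ => rfl
  reg := fun i => hreg i
  wid := ⟨_, rfl, by rw [List.length_replicate]; exact hwid⟩
  wl := ⟨_, rfl, by rw [List.length_replicate]; exact hwl⟩
  wp := hwp
  wmu := hwμ
  call := fun c => by
    rcases c with i | k
    · rfl
    · rfl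

end

end Vale.Agent.P338.R2.H784.Fp
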