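import Vale.Agent.P338.R2.H784.Fp.RoundF
import Vale.Agent.P338.R2.H968.SetupF
import Vale.Agent.P338.R2.H968.Guard

/-!
P338, stage 2: one phase over `F_p`.
-/

namespace Vale.Agent.P338.R2.H784.Fp

open Vale.Agent.P338.R2.H898
open Vale.Agent.P338.R2.H968
open Vale.Agent.P338.R2.H784
open Vale.Agent.P338.R2.H968.CallEnv (mem0 callC)
open Vale.Agent.P338.R2.H525 (dBits mulBits)
open Vale.Agent.P338.R2.H525.Fp (sPar hPar par)
open Vale.Agent.P338.R2.H778 (bits)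
open Vale.Agent.P338.R2.H778.FpW (PN vI vA vB)
open Function (update)

variable {A A₀ : MTM} {l W h n p w : ℕ}

variable [DecidableEq (LF A.Tape A₀.Tape)] [DecidableEq (Al A A₀)]

/-- Eight rounds. -/
theorem tri_rounds (hA : Multiplies A) (hA₀ : Multiplies A₀) (hW : 32 ≤ W) (hWl : W ≤ l)
    (hp : p.Prime) (hp1 : 2 * 2 ^ sPar W < p)
    (hp2 : p ≤ 4 * 2 ^ sPar W) (hw : orderOf (w : ZMod p) = p - 1) (hwp : w < p)
    (hn : 576 * 4 ^ l ≤ n) (M : ℕ → ℕ → Bool) :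
    Prog.Run (dd A A₀) (rep 8 (roundQ A A₀))
      (sto (sA l W W n p w (bw A A₀ (dBits l W M))))
      (8 * (cR A A₀ * (mulTime A n + n + 4 ^ l + 576 * 4 ^ l / W * (mulTime A₀ W + W))) + 1)
      (sto (sA l W (W - 8 * sPar W) n p w (bw A A₀ (dBits l (W - 8 * sPar W) M)))) := by
  obtain ⟨g1, g2, g3, g4, g5, g6, g7⟩ := par W hW
  have h1 := Tri.rep (d := dd A A₀) 8 (roundQ A A₀)
    (fun i s => s = sto (sA l W (W - i * sPar W) n p w (bw A A₀ (dBits l (W - i * sPar W) M))))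
    (cR A A₀ * (mulTime A n + n + 4 ^ l + 576 * 4 ^ l / W * (mulTime A₀ W + W)))
    (by
      rintro i hi s rfl
      have h2 : (i + 1) * sPar W ≤ 8 * sPar W := Nat.mul_le_mul_right _ (by omega)
      have h3 : (i + 1) * sPar W = i * sPar W + sPar W := by ring
      have h4 := run_roundQ (l := l) (W := W) (h := W - i * sPar W) (n := n) (p := p) (w := w)
        hA hA₀ hW hWl (by omega) (by omega) hp hp1 hp2 hw hwp hn M
      rw [show W - i * sPar W - sPar W = W - (i + 1) * sPar W by omega] at h4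
      exact ⟨_, h4, rfl⟩)
    (s := sto (sA l W W n p w (bw A A₀ (dBits l W M)))) (by simp)
  obtain ⟨s', hrun, rfl⟩ := h1
  exact hrun

/-- Empty the words. -/
noncomputable def clrWQ (A A₀ : MTM) [DecidableEq (LF A.Tape A₀.Tape)] :
    Prog (Mem A A₀) (LF A.Tape A₀.Tape) (Al A A₀) :=
  .seq (clr (lz (.w .w))) (.seq (clr (lz (.w .p))) (clr (lz (.w .mu))))

/-- The body of a phase. -/
noncomputable def bodyQ (A A₀ : MTM) [DecidableEq (LF A.Tape A₀.Tape)] [DecidableEq (Al A A₀)] :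
    Prog (Mem A A₀) (LF A.Tape A₀.Tape) (Al A A₀) :=
  .seq (H778.FpW.sched (jP A.Tape A₀.Tape) .u) (.seq (setupP A A₀) (.seq (rep 8 (roundQ A A₀))
    (.seq (clrWQ A A₀) (H778.FpW.wipe (jP A.Tape A₀.Tape)))))

/-- One phase. -/
noncomputable def phaseQ (A A₀ : MTM) [DecidableEq (LF A.Tape A₀.Tape)] [DecidableEq (Al A A₀)] :
    Prog (Mem A A₀) (LF A.Tape A₀.Tape) (Al A A₀) :=
  guard (lz (.r .hh)) (bodyQ A A₀)

/-- The constant in the cost of a phase. -/
noncomputable def cP (A A₀ : MTM) : ℕ := 8 * cR A A₀ + 10000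

theorem run_bodyQ (hA : Multiplies A) (hA₀ : Multiplies A₀) (hW : 32 ≤ W) (hWl : W ≤ l)
    (hn : 576 * 4 ^ l ≤ n) (M : ℕ → ℕ → Bool) :
    Prog.Run (dd A A₀) (bodyQ A A₀)
      (sto (sI A A₀ l W n (bw A A₀ (dBits l W M))))
      (cP A A₀ * (mulTime A n + n + 4 ^ l + 576 * 4 ^ l / W * (mulTime A₀ W + W)) - 100)
      (sto (sI A A₀ l (W - 8 * sPar W) n (bw A A₀ (dBits l (W - 8 * sPar W) M)))) := by
  have r1 := run_of_rp (T := A.Tape) (T₀ := A₀.Tape) (d := dd A A₀) (u := .u)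
    (S := sI A A₀ l W n (bw A A₀ (dBits l W M)))
    (H778.FpW.rp_sched (M := Mem A A₀) (l := l) (jP_inj A.Tape A₀.Tape) hW)
    rfl (mem0 A, mem0 A₀)
  obtain ⟨p, w, q1, q2, q3, q4, q5, q6, r2⟩ := run_setupZ (A := A) (A₀ := A₀)
    (mem0 A, mem0 A₀) { sI A A₀ l W n (bw A A₀ (dBits l W M)) with r := vA l W W 0 } hW rfl rfl
    rfl rfl rfl rfl
  have r3 := tri_rounds (l := l) (W := W) (n := n) (p := p) (w := w)
    hA hA₀ hW hWl q1 q2 q3 q4 q6 hn M
  have e1 : (⟨(mem0 A, mem0 A₀), zst .u { ({ sI A A₀ l W n (bw A A₀ (dBits l W M)) with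
      r := vA l W W 0 } : ZS (Al A A₀)) with
          r := update (vA l W W 0) .Q (p - 1)
          w := update (update (update (fun _ => ⟨[], []⟩) .mu
            ⟨[], (bits W (2 ^ W / p + 1)).map
            fun b => Sy.l (bitL b)⟩) .p ⟨[], (bits W p).map fun b => Sy.l (bitL b)⟩) .w
            ⟨[], (bits W w).map fun b => Sy.l (bitL b)⟩ }⟩ :
      Store (Mem A A₀) (LF A.Tape A₀.Tape) (Al A A₀)) =
      sto (sA l W W n p w (bw A A₀ (dBits l W M))) := by
    have e2 : update (vA l W W 0) .Q (p - 1) = vA l W W (p - 1) := by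
      funext k
      cases k <;> simp [vA, Function.update]
    have e3 : update (update (update (fun _ => (⟨[], []⟩ : Zip (Al A A₀))) WN.mu
            ⟨[], (bits W (2 ^ W / p + 1)).map
            fun b => Sy.l (bitL b)⟩) WN.p ⟨[], (bits W p).map fun b => Sy.l (bitL b)⟩) WN.w
            ⟨[], (bits W w).map fun b => Sy.l (bitL b)⟩ = zA A A₀ W p w := by
      funext k
      cases k <;> simp [zA, Function.update]
    rw [e2, e3]
    rfl
  have r2' : Prog.Run (dd A A₀) (setupP A A₀) (sto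
      { sI A A₀ l W n (bw A A₀ (dBits l W M)) with r := vA l W W 0 }) (1800 * 4 ^ W)
      (sto (sA l W W n p w (bw A A₀ (dBits l W M)))) := by
    rw [← e1]
    exact r2
  -- the words
  have r4 := run_clr (d := dd A A₀) (lz (.w .w) : LF A.Tape A₀.Tape) (mem0 A, mem0 A₀)
    (zst .u (sA l W (W - 8 * sPar W) n p w (bw A A₀ (dBits l (W - 8 * sPar W) M))))
  rw [zst_w] at r4
  have r5 := run_clr (d := dd A A₀) (lz (.w .p) : LF A.Tape A₀.Tape) (mem0 A, mem0 A₀)
    (zst .u { sA l W (W - 8 * sPar W) n p w (bw A A₀ (dBits l (W - 8 * sPar W) M)) with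
      w := update (sA l W (W - 8 * sPar W) n p w
        (bw A A₀ (dBits l (W - 8 * sPar W) M))).w .w ⟨[], []⟩ })
  rw [zst_w] at r5
  have r6 := run_clr (d := dd A A₀) (lz (.w .mu) : LF A.Tape A₀.Tape) (mem0 A, mem0 A₀)
    (zst .u { sA l W (W - 8 * sPar W) n p w (bw A A₀ (dBits l (W - 8 * sPar W) M)) with
      w := update (update (sA l W (W - 8 * sPar W) n p w
        (bw A A₀ (dBits l (W - 8 * sPar W) M))).w .w ⟨[], []⟩) .p ⟨[], []⟩ })
  rw [zst_w] at r6
  have e4 : (⟨(mem0 A, mem0 A₀), zst .u { sA l W (W - 8 * sPar W) n p w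
      (bw A A₀ (dBits l (W - 8 * sPar W) M)) with
      w := update (update (update (sA l W (W - 8 * sPar W) n p w
        (bw A A₀ (dBits l (W - 8 * sPar W) M))).w .w ⟨[], []⟩) .p ⟨[], []⟩) .mu ⟨[], []⟩ }⟩ :
      Store (Mem A A₀) (LF A.Tape A₀.Tape) (Al A A₀)) =
      sto { sI A A₀ l (W - 8 * sPar W) n (bw A A₀ (dBits l (W - 8 * sPar W) M)) with
        r := vA l W (W - 8 * sPar W) (p - 1) } := by
    have e3 : update (update (update (sA (A := A) (A₀ := A₀) l W (W - 8 * sPar W) n p w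
        (bw A A₀ (dBits l (W - 8 * sPar W) M))).w .w ⟨[], []⟩) .p ⟨[], []⟩) .mu ⟨[], []⟩ =
        fun _ => ⟨[], []⟩ := by
      funext k
      cases k <;> simp [sA, zA, Function.update]
    rw [e3]
    rfl
  have r456 : Prog.Run (dd A A₀) (clrWQ A A₀)
      (sto (sA l W (W - 8 * sPar W) n p w (bw A A₀ (dBits l (W - 8 * sPar W) M)))) (2 + (2 + 2))
      (sto { sI A A₀ l (W - 8 * sPar W) n (bw A A₀ (dBits l (W - 8 * sPar W) M)) with
        r := vA l W (W - 8 * sPar W) (p - 1) }) := by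
    rw [← e4]
    exact r4.seq (r5.seq r6)
  have r7 := run_of_rp (T := A.Tape) (T₀ := A₀.Tape) (d := dd A A₀) (u := .u)
    (S := { sI A A₀ l (W - 8 * sPar W) n (bw A A₀ (dBits l (W - 8 * sPar W) M)) with
        r := vA l W (W - 8 * sPar W) (p - 1) })
    (H778.FpW.rp_wipe (M := Mem A A₀) (l := l) (w := W) (h := W - 8 * sPar W) (q := p - 1)
      (jP_inj A.Tape A₀.Tape))
    rfl (mem0 A, mem0 A₀)
  refine (r1.seq (r2'.seq (r3.seq (r456.seq r7)))).mono ?_
  have h4 : 4 ^ W ≤ 4 ^ l := Nat.pow_le_pow_right (by norm_num) hWl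
  have h5 : 1 ≤ 4 ^ l := Nat.one_le_pow _ _ (by norm_num)
  set Z := mulTime A n + n + 4 ^ l + 576 * 4 ^ l / W * (mulTime A₀ W + W) with hZ
  have h6 : 4 ^ l ≤ Z := by omega
  have e5 : cP A A₀ * Z = 8 * (cR A A₀ * Z) + 10000 * Z := by
    unfold cP
    ring
  rw [e5]
  omega

/-- **One phase.** -/
theorem phase_run (hA : Multiplies A) (hA₀ : Multiplies A₀) (hl : h ≤ l)
    (hn : 576 * 4 ^ l ≤ n) (M : ℕ → ℕ → Bool) :
    ∃ t h' K, K * (h + 1) ≤ (cP A A₀ + 1152) * 4 ^ l ∧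
      t ≤ (cP A A₀ + 1152) * (mulTime A n + n + 4 ^ l + K * (mulTime A₀ h + h)) ∧ h' ≤ h ∧
      (32 ≤ h → h' ≤ Nat.log 2 h + 3) ∧ (h < 32 → h' = h) ∧
      Prog.Run (dd A A₀) (phaseQ A A₀)
        (sto (sI A A₀ l h n (bw A A₀ (dBits l h M)))) t
        (sto (sI A A₀ l h' n (bw A A₀ (dBits l h' M)))) := by
  have h5 : 1 ≤ 4 ^ l := Nat.one_le_pow _ _ (by norm_num)
  by_cases h32 : 32 ≤ h
  · obtain ⟨g1, g2, g3, g4, g5, g6, g7⟩ := par h h32
    have hlog : 5 ≤ Nat.log 2 h := Nat.le_log_of_pow_le (by norm_num) (by omega)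
    have h1 : hPar h = Nat.log 2 h - 4 := rfl
    have hb := run_bodyQ (A := A) (A₀ := A₀) hA hA₀ h32 hl hn M
    set Kr := 576 * 4 ^ l / h with hKr
    have h2 : Kr * h ≤ 576 * 4 ^ l := Nat.div_mul_le_self _ _
    have h3 : Kr ≤ Kr * h := Nat.le_mul_of_pos_right _ (by omega)
    set Z := mulTime A n + n + 4 ^ l + Kr * (mulTime A₀ h + h) with hZ
    refine ⟨cP A A₀ * Z, h - 8 * sPar h, Kr, ?_, ?_, by omega, fun _ => by omega,
      fun h' => absurd h' (by omega), ?_⟩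
    · calc Kr * (h + 1) = Kr * h + Kr := by ring
        _ ≤ 1152 * 4 ^ l := by omega
        _ ≤ _ := Nat.mul_le_mul_right _ (by omega)
    · exact Nat.mul_le_mul_right _ (by omega)
    · have h6 : 1 ≤ Z := by omega
      have h7 : 100 ≤ cP A A₀ * Z := by
        calc 100 ≤ cP A A₀ * 1 := by unfold cP; omega
          _ ≤ _ := Nat.mul_le_mul_left _ h6
      have h8 := run_guard (d := dd A A₀) (u := (.u : Al A A₀))
        (f := (lz (.r .hh) : LF A.Tape A₀.Tape)) (body := bodyQ A A₀) (m := (mem0 A, mem0 A₀))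
        (m1 := (mem0 A, mem0 A₀)) (z := zst .u (sI A A₀ l h n (bw A A₀ (dBits l h M))))
        (z1 := zst .u (sI A A₀ l (h - 8 * sPar h) n (bw A A₀ (dBits l (h - 8 * sPar h) M))))
        (c := cP A A₀ * Z - 100) (h := h) rfl (fun _ => hb) (fun h9 => absurd h9 (by omega))
      exact h8.mono (by omega)
  · refine ⟨100, h, 0, by omega, ?_, le_rfl, fun h' => absurd h' h32, fun _ => rfl, ?_⟩
    · have h6 : 1 ≤ mulTime A n + n + 4 ^ l + 0 * (mulTime A₀ h + h) := by omega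
      calc 100 ≤ (cP A A₀ + 1152) * 1 := by omega
        _ ≤ _ := Nat.mul_le_mul_left _ h6
    · exact (run_guard (d := dd A A₀) (u := (.u : Al A A₀))
        (f := (lz (.r .hh) : LF A.Tape A₀.Tape)) (body := bodyQ A A₀) (m := (mem0 A, mem0 A₀))
        (m1 := (mem0 A, mem0 A₀)) (z := zst .u (sI A A₀ l h n (bw A A₀ (dBits l h M))))
        (z1 := zst .u (sI A A₀ l h n (bw A A₀ (dBits l h M))))
        (c := 0) (h := h) rfl (fun h9 => absurd h9 (by omega)) (fun _ => ⟨rfl, rfl⟩)).mono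
          (by omega)

end Vale.Agent.P338.R2.H784.Fp
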