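import Vale.Agent.P338.R2.H784.Fp.Inst

/-!
P338, stage 2: one round over `F_p`.
-/

namespace Vale.Agent.P338.R2.H784.Fp

open Vale.Agent.P338.R2.H898
open Vale.Agent.P338.R2.H968
open Vale.Agent.P338.R2.H784
open Vale.Agent.P338.R2.H968.CallEnv (mem0 callC)
open Vale.Agent.P338.R2.H525 (dBits mulBits)
open Vale.Agent.P338.R2.H525.Fp (Dim sPar hPar dimR packBits kerBits midBits postBits inputBits
  wordOf)
open Vale.Agent.P338.R2.H778 (bits)
open Vale.Agent.P338.R2.H778.FpW (PN vI vA vB)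
open Function (update)

variable {A A₀ : MTM} {l W h n p w : ℕ}

/-- The rulers. -/
def jP (T T₀ : Type) (k : PN) : LF T T₀ := lz (.r k)

theorem jP_inj (T T₀ : Type) : Function.Injective (jP T T₀) := fun a b hab => by
  simpa [jP, lz] using hab

variable [DecidableEq (LF A.Tape A₀.Tape)] [DecidableEq (Al A A₀)]

/-- A multiplication by `A`; the clock is emptied. -/
noncomputable def mulQ (A A₀ : MTM) [DecidableEq (LF A.Tape A₀.Tape)] :
    Prog (Mem A A₀) (LF A.Tape A₀.Tape) (Al A A₀) :=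
  .seq ((env1 A A₀ (cA A.Tape A₀.Tape) cA_inj).mulP (lz .nr)) (clr (lz .clk))

/-- One round. -/
noncomputable def roundQ (A A₀ : MTM) [DecidableEq (LF A.Tape A₀.Tape)] [DecidableEq (Al A A₀)] :
    Prog (Mem A A₀) (LF A.Tape A₀.Tape) (Al A A₀) :=
  .seq (H778.FpW.prep (jP A.Tape A₀.Tape) .u) (.seq (packQ A A₀) (.seq (clr (lz .dat))
    (.seq (kerQ A A₀) (.seq (mulQ A A₀) (.seq (midQ A A₀) (.seq (clr (lz .res))
      (.seq (kerQ A A₀) (.seq (mulQ A A₀) (.seq (postQ A A₀) (.seq (clr (lz .res))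
        (H778.FpW.post (jP A.Tape A₀.Tape) .u)))))))))))

/-- The constant in the cost of a round. -/
noncomputable def cR (A A₀ : MTM) : ℕ :=
  2 * callC A + 50000 + 420 * (3 * callC A₀ + 230)

omit [DecidableEq (LF A.Tape A₀.Tape)] [DecidableEq (Al A A₀)] in
theorem cR_bound {a1 b1 b2 b3 b4 D N Kr T : ℕ} (h1 : a1 ≤ 576 * D) (h2 : b1 ≤ Kr)
    (h3 : b2 ≤ Kr) (hD : 1 ≤ D) (hb3 : b3 = T) (hb4 : b4 = N) :
    400 * D + (80 * a1 + 2 + (2 + (30 * (b1 * wcost A₀ W) + ((callC A + 30) * (b3 + b4) + 2 +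
      (155 * (b2 * wcost A₀ W) + (2 + (30 * (b1 * wcost A₀ W) + ((callC A + 30) * (b3 + b4) + 2 +
      (205 * (b2 * wcost A₀ W) + (2 + 40 * D)))))))))) ≤
      cR A A₀ * (T + N + D + Kr * (mulTime A₀ W + W)) := by
  subst hb3 hb4
  have e1 : b1 * wcost A₀ W ≤ Kr * wcost A₀ W := Nat.mul_le_mul_right _ h2
  have e2 : b2 * wcost A₀ W ≤ Kr * wcost A₀ W := Nat.mul_le_mul_right _ h3
  have e3 : Kr * wcost A₀ W = (3 * callC A₀ + 230) * (Kr * (mulTime A₀ W + W)) := by
    unfold wcost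
    ring
  rw [e3] at e1 e2
  set Z := Kr * (mulTime A₀ W + W) with hZ
  set U := (3 * callC A₀ + 230) * Z with hU
  have e4 : cR A A₀ * (b3 + b4 + D + Z) = 2 * callC A * (b3 + b4) + 50000 * (b3 + b4) +
      420 * (3 * callC A₀ + 230) * (b3 + b4) + 2 * callC A * (D + Z) + 50000 * (D + Z) +
      420 * (3 * callC A₀ + 230) * D + 420 * U := by
    unfold cR
    rw [hU]
    ring
  rw [e4]
  have e5 : (callC A + 30) * (b3 + b4) = callC A * (b3 + b4) + 30 * (b3 + b4) := by ring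
  rw [e5]
  have e6 : 2 * callC A * (b3 + b4) = 2 * (callC A * (b3 + b4)) := by ring
  rw [e6]
  set V := callC A * (b3 + b4)
  omega

theorem run_roundQ (hA : Multiplies A) (hA₀ : Multiplies A₀) (hW : 32 ≤ W) (hWl : W ≤ l)
    (h1 : hPar W + sPar W ≤ h) (hl : h ≤ l) (hp : p.Prime) (hp1 : 2 * 2 ^ sPar W < p)
    (hp2 : p ≤ 4 * 2 ^ sPar W) (hw : orderOf (w : ZMod p) = p - 1) (hwp : w < p)
    (hn : 576 * 4 ^ l ≤ n) (M : ℕ → ℕ → Bool) :
    Prog.Run (dd A A₀) (roundQ A A₀)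
      (sto (sA l W h n p w (bw A A₀ (dBits l h M))))
      (cR A A₀ * (mulTime A n + n + 4 ^ l + 576 * 4 ^ l / W * (mulTime A₀ W + W)))
      (sto (sA l W (h - sPar W) n p w (bw A A₀ (dBits l (h - sPar W) M)))) := by
  have hok := H525.Fp.dimR_ok l W h p w hW hp hp1 hp2 hw
  have h4l : 1 ≤ 4 ^ l := Nat.one_le_pow _ _ (by norm_num)
  have hl4 : l ≤ 4 ^ l := (Nat.lt_pow_self (by norm_num)).le
  have hWn : W ≤ n := by omega
  obtain ⟨z1, z2, z3⟩ := H525.Fp.dimR_sizes l W h p w hW h1 hl hp.pos hp2 n hn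
  obtain ⟨y1, y2, y3, y4, y5⟩ := H525.Fp.dimR_slots l W h p w hW h1 hl hp.pos hp2
  have hin := H525.Fp.input_dimR l W h p w M h1 hl
  have hM := H525.Fp.inM_dimR l W h p w n M hW h1 hl hWn hp hp1 hp2 hw hn
  have hP := H525.Fp.inP_dimR l W h p w n M hW h1 hl hWn hp hp1 hp2 hw hn
  have hR := H525.Fp.round_dimR l W h p w n M hW h1 hl hp hp1 hp2 hw hn
  have l1 := H525.Fp.length_packBits (dimR l W h p w) (wordOf l h (sPar W) (hPar W) M) hok.hE
    hok.hL (fun k x g y e => H525.Fp.dimR_word l W h M p w k x g y e)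
  have l2 := H525.Fp.length_kerBits (dimR l W h p w) hok.hX hok.hG hok.hE
  have l3 := H525.Fp.length_midBits (dimR l W h p w) (mulBits n (packBits (dimR l W h p w)
    (wordOf l h (sPar W) (hPar W) M)) (kerBits (dimR l W h p w)))
  set PB := packBits (dimR l W h p w) (wordOf l h (sPar W) (hPar W) M) with hPB
  set KB := kerBits (dimR l W h p w) with hKB
  set MB := midBits (dimR l W h p w) (mulBits n PB KB) with hMB
  -- the steps
  have r1 := run_of_rp (T := A.Tape) (T₀ := A₀.Tape) (d := dd A A₀) (u := .u)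
    (S := sA l W h n p w (bw A A₀ (dBits l h M)))
    (H778.FpW.rp_prep (M := Mem A A₀) (jP_inj A.Tape A₀.Tape) (h := h) (q := p - 1) hW h1 hl hWl)
    rfl (mem0 A, mem0 A₀)
  have r2 := run_packQ (A := A) (A₀ := A₀) (l := l) (h := h) (n := n) (w := w) hW hp1 M
    (nl A A₀) (nl A A₀) (nl A A₀)
  rw [← hin, ← hPB] at r2
  have r3 := run_clr (d := dd A A₀) (lz .dat : LF A.Tape A₀.Tape) (mem0 A, mem0 A₀)
    (zst .u (sB l W h n p w (bw A A₀ (dBits l h M)) (nl A A₀) (bw A A₀ PB) (nl A A₀) (nl A A₀)))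
  rw [zst_dat] at r3
  have r4 := run_kerQ (A := A) (n := n) hA₀ hok hwp (nl A A₀) (nl A A₀) (bw A A₀ PB)
  have r5 := run_mulB (A := A) (A₀ := A₀) (l := l) (W := W) (h := h) (p := p) (w := w) hA
    (n := n) (by omega) (x := PB) (y := KB) (by rw [l1]; exact z1) (by rw [l2]; exact z2)
    (nl A A₀)
  have r6 := run_midQ (A := A) (n := n) hA₀ hok hwp (nl A A₀) (nl A A₀) (nl A A₀) _ hM
  have r7 := run_clr (d := dd A A₀) (lz .res : LF A.Tape A₀.Tape) (mem0 A, mem0 A₀)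
    (zst .u (sB l W h n p w (nl A A₀) (nl A A₀) (bw A A₀ MB) (nl A A₀)
      (bw A A₀ (mulBits n PB KB))))
  rw [zst_res] at r7
  have r8 := run_kerQ (A := A) (n := n) hA₀ hok hwp (nl A A₀) (nl A A₀) (bw A A₀ MB)
  have r9 := run_mulB (A := A) (A₀ := A₀) (l := l) (W := W) (h := h) (p := p) (w := w) hA
    (n := n) (by omega) (x := MB) (y := KB) (by rw [l3]; exact z3) (by rw [l2]; exact z2)
    (nl A A₀)
  have r10 := run_postQ (A := A) (n := n) hA₀ hok hwp (nl A A₀) (nl A A₀) (nl A A₀) _ hP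
  have r11 := run_clr (d := dd A A₀) (lz .res : LF A.Tape A₀.Tape) (mem0 A, mem0 A₀)
    (zst .u (sB l W h n p w (bw A A₀ (postBits (dimR l W h p w) (mulBits n MB KB)))
      (nl A A₀) (nl A A₀) (nl A A₀) (bw A A₀ (mulBits n MB KB))))
  rw [zst_res] at r11
  have r12 := run_of_rp (T := A.Tape) (T₀ := A₀.Tape) (d := dd A A₀) (u := .u)
    (S := sB l W h n p w (bw A A₀ (dBits l (h - sPar W) M)) (nl A A₀) (nl A A₀) (nl A A₀)
      (nl A A₀))
    (H778.FpW.rp_post (M := Mem A A₀) (jP_inj A.Tape A₀.Tape) (l := l) (w := W) (h := h)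
      (q := p - 1) (by omega) hl) rfl (mem0 A, mem0 A₀)
  have hpost : postBits (dimR l W h p w) (mulBits n MB KB) = dBits l (h - sPar W) M := hR
  rw [hpost] at r10 r11
  refine ((r1.seq (r2.seq (r3.seq (r4.seq (r5.seq (r6.seq (r7.seq (r8.seq (r9.seq (r10.seq
    (r11.seq r12))))))))))).mono ?_)
  have e1 : (dimR l W h p w).K * ((dimR l W h p w).Q * ((dimR l W h p w).G *
      (2 * (dimR l W h p w).X * ((dimR l W h p w).E * wcost A₀ W)))) =
      (dimR l W h p w).K * ((dimR l W h p w).Q * ((dimR l W h p w).G *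
      (2 * (dimR l W h p w).X * (dimR l W h p w).E))) * wcost A₀ W := by ring
  have e2 : (dimR l W h p w).K * (((dimR l W h p w).X + (dimR l W h p w).Q) *
      ((dimR l W h p w).R * ((dimR l W h p w).E * W))) ≤ 576 * 4 ^ l := by
    refine le_trans ?_ y1
    calc (dimR l W h p w).K * (((dimR l W h p w).X + (dimR l W h p w).Q) *
          ((dimR l W h p w).R * ((dimR l W h p w).E * W))) =
        (dimR l W h p w).K * (((dimR l W h p w).X + (dimR l W h p w).Q) *
          (dimR l W h p w).R) * (dimR l W h p w).E * W := by ring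
      _ ≤ (dimR l W h p w).K * (dimR l W h p w).S1 * (dimR l W h p w).E * W := by
        gcongr
        unfold Dim.S1
        omega
  rw [e1]
  have hWpos : 0 < W := by omega
  exact cR_bound e2 ((Nat.le_div_iff_mul_le hWpos).mpr y2) ((Nat.le_div_iff_mul_le hWpos).mpr y4)
    h4l rfl rfl

end Vale.Agent.P338.R2.H784.Fp
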