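import Vale.Agent.P338.R2.H784.Fp.Assemble2
import Vale.Agent.P338.R2.H784.Reduction

/-!
P338, stage 2: the rounds of the first stage in the larger environment.
-/

namespace Vale.Agent.P338.R2.H784.Fp

open Vale.Agent.P338.R2.H898
open Vale.Agent.P338.R2.H968
open Vale.Agent.P338.R2.H784
open Vale.Agent.P338.R2.H968.CallEnv (mem0 callC)
open Vale.Agent.P338.R2.H525 (dBits)

/-- The files: `Y` are the additional files. -/
abbrev FF (T Y : Type) : Type := ((T ⊕ RF) ⊕ TF) ⊕ Y

/-- The files of the complete program. -/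
def jj2 (T Y : Type) (x : TF) : FF T Y := .inl (jj T x)

theorem jj2_inj (T Y : Type) : Function.Injective (jj2 T Y) := fun x y h => by
  apply jj_inj T
  simpa [jj2] using h

/-- The files of the rounds of the first stage. -/
def io (T Y : Type) (x : T ⊕ RF) : FF T Y := .inl (.inl x)

theorem io_inj (T Y : Type) : Function.Injective (io T Y) := fun x y h => by
  simpa [io] using h

theorem ne_jj2 {T Y : Type} {f : T ⊕ RF} (hf : ¬ shared f) (x : TF) : io T Y f ≠ jj2 T Y x := by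
  intro h
  exact ne_jj hf x (by simpa [io, jj2] using h)

theorem inr_ne_jj2 {T Y : Type} (y : Y) (x : TF) : (.inr y : FF T Y) ≠ jj2 T Y x := by
  simp [jj2]

/-- Everything used only inside a round is empty. -/
def RQ2 (A A₀ : MTM) (Y : Type) (s : Store (Mem A A₀) (FF A.Tape Y) (Al A A₀)) : Prop :=
  s.m = (mem0 A, mem0 A₀) ∧ (∀ f : A.Tape ⊕ RF, ¬ shared f → s.z (io A.Tape Y f) = ⟨[], []⟩) ∧
    ∀ y : Y, s.z (.inr y) = ⟨[], []⟩

theorem RQ2_stable {A A₀ : MTM} {Y : Type} (s s' : Store (Mem A A₀) (FF A.Tape Y) (Al A A₀))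
    (h : RQ2 A A₀ Y s) (h3 : s'.m = s.m)
    (h4 : ∀ f, (∀ x, f ≠ jj2 A.Tape Y x) → s'.z f = s.z f) : RQ2 A A₀ Y s' := by
  obtain ⟨h1, h2, h2'⟩ := h
  exact ⟨h3.trans h1, fun f hf => (h4 _ (ne_jj2 hf)).trans (h2 f hf),
    fun y => (h4 _ (inr_ne_jj2 y)).trans (h2' y)⟩

theorem RQ2_init {A A₀ : MTM} {Y : Type} (s : Store (Mem A A₀) (FF A.Tape Y) (Al A A₀))
    (h1 : s.m = (mem0 A, mem0 A₀)) (h2 : ∀ f, (∀ x, f ≠ jj2 A.Tape Y x) → s.z f = ⟨[], []⟩) :
    RQ2 A A₀ Y s :=
  ⟨h1, fun _ hf => h2 _ (ne_jj2 hf), fun y => h2 _ (inr_ne_jj2 y)⟩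

open Classical in
/-- The round of the first stage. -/
noncomputable def rdOld (A A₀ : MTM) (Y : Type) : Prog (Mem A A₀) (FF A.Tape Y) (Al A A₀) :=
  (roundP (env1 A A₀ (fmap A.Tape) fmap_inj) .u .k).map (Lens.idL _) (io A.Tape Y)

open Classical in
theorem roundSpec2 {A A₀ : MTM} (hA : Multiplies A) (Y : Type) :
    RoundSpec (dd A A₀) .u (fun b => Sy.l (bitL b)) (jj2 A.Tape Y) (rdOld A A₀ Y)
      (RQ2 A A₀ Y) (fun n => 2 * mulTime A n) (2 * callC A + 35000) := by
  intro l h n X s h4 hl hn hel hhh hnr hdat hclk hR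
  obtain ⟨hm, hz, hy⟩ := hR
  obtain ⟨T, hT, hrun⟩ := run_round (d := dd A A₀) (u := .u) (mk := .k)
    (m := s.m) hA (env1 A A₀ (fmap A.Tape) fmap_inj) (fun _ => rfl) rfl
    (by rw [hm]; rfl) (by simp) h4 hl hn X (s.z (io A.Tape Y (.inr (.r .h2))))
  refine ⟨T, hT, ?_⟩
  have hrun' := hrun.map (L := Lens.idL (Mem A A₀)) (ι := io A.Tape Y) (io_inj _ _) (S := s) (by
      unfold Store.pull
      simp only [Lens.idL, Store.mk.injEq, true_and]
      funext f
      rcases f with i | (x | _ | _ | _ | _ | _)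
      · rw [hz _ (by simp [shared])]
        simp [st]
      · cases x
        · rw [show s.z (io A.Tape Y (Sum.inr (RF.r RR.el))) = s.z (jj2 A.Tape Y .el) from rfl,
            hel]
          simp [st, v0]
        · rw [show s.z (io A.Tape Y (Sum.inr (RF.r RR.hh))) = s.z (jj2 A.Tape Y .hh) from rfl,
            hhh]
          simp [st, v0]
        · rw [show s.z (io A.Tape Y (Sum.inr (RF.r RR.nr))) = s.z (jj2 A.Tape Y .nr) from rfl,
            hnr]
          simp [st, v0]
        · simp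
        all_goals
          rw [hz _ (by simp [shared])]
          simp [st, v0]
      · rw [show s.z (io A.Tape Y (Sum.inr RF.dat)) = s.z (jj2 A.Tape Y .dat) from rfl, hdat]
        simp [st, env1]
      · rw [show s.z (io A.Tape Y (Sum.inr RF.clk)) = s.z (jj2 A.Tape Y .clk) from rfl, hclk]
        simp [st]
      all_goals
        rw [hz _ (by simp [shared])]
        simp [st])
  refine (Tri.of_run hrun' ?_).cost ?_
  · have hz1 : ∀ f : A.Tape ⊕ RF, (Store.put (Lens.idL (Mem A A₀)) (io A.Tape Y) s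
        (st .u s.m (v1 l h n) ⟨[], (dBits l ((h + 1) / 2) X).map
          (env1 A A₀ (fmap A.Tape) fmap_inj).bit⟩ ⟨List.replicate T .u, []⟩
          ⟨[], []⟩ ⟨[], []⟩ ⟨[], []⟩)).z (io A.Tape Y f) =
        (st .u s.m (v1 l h n) ⟨[], (dBits l ((h + 1) / 2) X).map
          (env1 A A₀ (fmap A.Tape) fmap_inj).bit⟩ ⟨List.replicate T .u, []⟩
          ⟨[], []⟩ ⟨[], []⟩ ⟨[], []⟩).z f := fun f =>
      Store.put_z_apply (io_inj _ _) _ _ f
    have hgen : ∀ f : FF A.Tape Y, (∀ g, io A.Tape Y g ≠ f) →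
        (Store.put (Lens.idL (Mem A A₀)) (io A.Tape Y) s
        (st .u s.m (v1 l h n) ⟨[], (dBits l ((h + 1) / 2) X).map
          (env1 A A₀ (fmap A.Tape) fmap_inj).bit⟩ ⟨List.replicate T .u, []⟩
          ⟨[], []⟩ ⟨[], []⟩ ⟨[], []⟩)).z f = s.z f := fun f hf =>
        Store.put_z_of_notMem _ _ hf
    refine ⟨hz1 (.inr .dat), hz1 (.inr (.r .h2)), hz1 (.inr .clk), ?_, hm, ?_, ?_⟩
    · intro x e1 e2 e3 e4
      have hgen' : ∀ y : TF, (∀ g, io A.Tape Y g ≠ .inl (.inr y)) →
          (Store.put (Lens.idL (Mem A A₀)) (io A.Tape Y) s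
        (st .u s.m (v1 l h n) ⟨[], (dBits l ((h + 1) / 2) X).map
          (env1 A A₀ (fmap A.Tape) fmap_inj).bit⟩ ⟨List.replicate T .u, []⟩
          ⟨[], []⟩ ⟨[], []⟩ ⟨[], []⟩)).z (.inl (.inr y)) = s.z (.inl (.inr y)) :=
        fun y h => hgen _ h
      cases x
      case dat => exact absurd rfl e1
      case hh => exact absurd rfl e2
      case h2 => exact absurd rfl e3
      case clk => exact absurd rfl e4
      case el =>
        refine (hz1 (.inr (.r .el))).trans ?_
        rw [hel]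
        rfl
      case nr =>
        refine (hz1 (.inr (.r .nr))).trans ?_
        rw [hnr]
        rfl
      all_goals exact hgen' _ (by simp [io])
    · intro f hf
      refine (hz1 f).trans ?_
      rcases f with i | (x | _ | _ | _ | _ | _)
      · rfl
      · cases x
        case el => exact absurd trivial hf
        case hh => exact absurd trivial hf
        case nr => exact absurd trivial hf
        case h2 => exact absurd trivial hf
        all_goals rfl
      · exact absurd trivial hf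
      · exact absurd trivial hf
      all_goals rfl
    · intro y
      rw [hgen _ (by simp [io])]
      exact hy y
  · apply Nat.mul_le_mul_left
    omega

/-- **The stage 2 reduction, given one phase over `F_p`.** -/
theorem costK_of_ph {A A₀ : MTM} (hA : Multiplies A) {Y : Type} [Finite Y]
    (hph : ∀ [DecidableEq (FF A.Tape Y)], ∃ (p : Prog (Mem A A₀) (FF A.Tape Y) (Al A A₀))
      (c : ℕ), PhSpec (dd A A₀) .u (fun b => Sy.l (bitL b)) (jj2 A.Tape Y) p (RQ2 A A₀ Y)
        (mulTime A) (mulTime A₀) c) (k ρ : ℕ) :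
    ∃ B : MTM, Transposes B ∧ ∃ c : ℕ, ∀ r s : ℕ, 1 ≤ r → 1 ≤ s → Near r s →
      ∀ N : Fin r → Fin s → Bool,
        H101.CostK k A A₀ (18432 * H898.mu r s + ρ) (ex r s) c (B.time (matWord N)) := by
  classical
  have := A.finTape
  have := A.finSym
  have := A₀.finSym
  have iF : Fintype (FF A.Tape Y) := Fintype.ofFinite _
  obtain ⟨p, c1, hp⟩ := hph
  obtain ⟨f2, c2, hf2⟩ := F2Spec_rep hp k
  obtain ⟨B, c, hB⟩ := machine_of_specs2 (A := A) (A₀ := A₀) (ρ := ρ) (C₀ := 18432)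
    (M := Mem A A₀) (F := FF A.Tape Y) (α := Al A A₀) (d := dd A A₀) (u := .u) (enc := Sy.l)
    (dl := Sy.dl) (fun _ => rfl) (mem0 A, mem0 A₀) (jj2_inj A.Tape Y) RQ2_stable RQ2_init
    (roundSpec2 hA Y) hf2 (nrp_spec ρ (jj2_inj A.Tape Y))
  refine ⟨B, fun r s hr hs N => (hB r s hr hs N).1, c, fun r s hr hs h N => ?_⟩
  have := (hB r s hr hs N).2
  rw [NN_of_near hr h] at this
  exact this

end Vale.Agent.P338.R2.H784.Fp
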