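import Vale.Agent.P338.R2.H784.Top
import Vale.Agent.P338.R2.H784.NrInst
import Vale.Agent.P338.R2.H101.Ph

/-!
P338, stage 2: the complete program, given the program of the rounds over `F_p`.
-/

namespace Vale.Agent.P338.R2.H784.Fp

open Vale.Agent.P338.R2.H898
open Vale.Agent.P338.R2.H784
open Vale.Agent.P338.R2.H525 (dBits)
open Vale.Agent.P338.R2.H207 (extM)
open Function (update)

set_option linter.unusedSectionVars false

variable {M F α : Type} [DecidableEq F] {d u : α}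

open Vale.Agent.P338.R2.H101 (Ph)

theorem Ph.le {T₀ : ℕ → ℕ} {c l k h h' V : ℕ} (H : Ph T₀ c l k h h' V) : h' ≤ h := by
  induction H with
  | zero h => exact le_rfl
  | succ _ h3 _ _ ih => exact h3.trans ih

theorem Ph.mono {T₀ : ℕ → ℕ} {c c' l k h h' V : ℕ} (H : Ph T₀ c l k h h' V) (hc : c ≤ c') :
    Ph T₀ c' l k h h' V := by
  induction H with
  | zero h => exact .zero h
  | succ _ h3 h4 h5 ih => exact .succ ih h3 h4 (h5.trans (Nat.mul_le_mul_right _ hc))

/-- Specification of one phase over `F_p`. -/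
def PhSpec (d u : α) (bit : Bool → α) (j : TF → F) (p : Prog M F α)
    (RR : Store M F α → Prop) (TA T₀ : ℕ → ℕ) (c : ℕ) : Prop :=
  ∀ (l h n : ℕ) (X : ℕ → ℕ → Bool) (s : Store M F α), 576 * 4 ^ l ≤ n → h ≤ l →
    Len u 0 l (s.z (j .el)) → Len u 0 h (s.z (j .hh)) → Len u 0 n (s.z (j .nr)) →
    s.z (j .dat) = ⟨[], (dBits l h X).map bit⟩ → Len u 0 0 (s.z (j .clk)) → RR s →
    ∃ t h' K, K * (h + 1) ≤ c * 4 ^ l ∧ t ≤ c * (TA n + n + 4 ^ l + K * (T₀ h + h)) ∧ h' ≤ h ∧
      (32 ≤ h → h' ≤ Nat.log 2 h + 3) ∧ (h < 32 → h' = h) ∧ Tri d p s t (fun s' =>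
        s'.z (j .dat) = ⟨[], (dBits l h' X).map bit⟩ ∧
        Len u 0 h' (s'.z (j .hh)) ∧ Len u 0 0 (s'.z (j .clk)) ∧
        (∀ x, x ≠ .dat → x ≠ .hh → x ≠ .clk → s'.z (j x) = s.z (j x)) ∧ RR s')

/-- Specification of `k` phases over `F_p`. -/
def F2Spec (k : ℕ) (d u : α) (bit : Bool → α) (j : TF → F) (p : Prog M F α)
    (RR : Store M F α → Prop) (TA T₀ : ℕ → ℕ) (c : ℕ) : Prop :=
  ∀ (l n : ℕ) (X : ℕ → ℕ → Bool) (s : Store M F α), 576 * 4 ^ l ≤ n →
    Len u 0 l (s.z (j .el)) → Len u 0 l (s.z (j .hh)) → Len u 0 n (s.z (j .nr)) →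
    s.z (j .dat) = ⟨[], (dBits l l X).map bit⟩ → Len u 0 0 (s.z (j .clk)) → RR s →
    ∃ t h' V, Ph T₀ c l k l h' V ∧ t ≤ c * (TA n + n + 4 ^ l + V) ∧ Tri d p s t (fun s' =>
        s'.z (j .dat) = ⟨[], (dBits l h' X).map bit⟩ ∧
        Len u 0 h' (s'.z (j .hh)) ∧ Len u 0 0 (s'.z (j .clk)) ∧
        (∀ x, x ≠ .dat → x ≠ .hh → x ≠ .clk → s'.z (j x) = s.z (j x)) ∧ RR s')

/-- Repetition of a phase. -/
theorem F2Spec_rep {bit : Bool → α} {j : TF → F} {p : Prog M F α} {RR : Store M F α → Prop}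
    {TA T₀ : ℕ → ℕ} {c : ℕ} (hp : PhSpec d u bit j p RR TA T₀ c) (k : ℕ) :
    ∃ (q : Prog M F α) (c' : ℕ), F2Spec k d u bit j q RR TA T₀ c' := by
  suffices H : ∀ k : ℕ, ∃ q : Prog M F α, F2Spec k d u bit j q RR TA T₀ ((k + 1) * (c + 1)) by
    obtain ⟨q, hq⟩ := H k
    exact ⟨q, _, hq⟩
  intro k
  induction k with
  | zero =>
    refine ⟨nop, ?_⟩
    intro l n X s hn h1 h2 h3 h4 h5 h6
    refine ⟨1, l, 0, .zero l, ?_, Tri.of_run (run_nop s.m s.z) ⟨h4, h2, h5, fun _ _ _ _ => rfl, h6⟩⟩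
    have : 1 ≤ 4 ^ l := Nat.one_le_pow _ _ (by norm_num)
    nlinarith
  | succ k ih =>
    obtain ⟨q, hq⟩ := ih
    refine ⟨.seq q p, ?_⟩
    intro l n X s hn h1 h2 h3 h4 h5 h6
    obtain ⟨t, h', V, hPh, ht, s', hrun, g1, g2, g3, g4, g5⟩ := hq l n X s hn h1 h2 h3 h4 h5 h6
    obtain ⟨t', h'', K, hK, ht', hh1, hh2, hh3, s'', hrun', g1', g2', g3', g4', g5'⟩ :=
      hp l h' n X s' hn (Ph.le hPh) (by rw [g4 _ (by decide) (by decide) (by decide)]; exact h1) g2
        (by rw [g4 _ (by decide) (by decide) (by decide)]; exact h3) g1 g3 g5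
    have hh4 : h'' ≤ Nat.log 2 h' + 32 := by
      by_cases hc : 32 ≤ h'
      · have := hh2 hc
        omega
      · have := hh3 (by omega)
        omega
    refine ⟨t + t', h'', V + K * (T₀ h' + h'), .succ (Ph.mono hPh ?_) hh1 hh4 (hK.trans ?_), ?_,
      s'', hrun.seq hrun', g1', g2', g3', ?_, g5'⟩
    · nlinarith
    · apply Nat.mul_le_mul_right
      nlinarith
    · set D := TA n + n + 4 ^ l with hD
      have e1 : (k + 1 + 1) * (c + 1) * (D + (V + K * (T₀ h' + h'))) =
          (k + 1) * (c + 1) * (D + V) + (k + 1) * (c + 1) * (K * (T₀ h' + h')) +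
          (c + 1) * V + (c + 1) * (D + K * (T₀ h' + h')) := by ring
      have e2 : c * (D + K * (T₀ h' + h')) ≤ (c + 1) * (D + K * (T₀ h' + h')) :=
        Nat.mul_le_mul_right _ (by omega)
      rw [e1]
      omega
    · intro x e1 e2 e3
      rw [g4' x e1 e2 e3, g4 x e1 e2 e3]

variable {j : TF → F} {RR : Store M F α → Prop} {l n r s : ℕ}

/-- The complete program. -/
def topProg2 [DecidableEq α] (j : TF → F) (enc : Letter → α) (u : α) (rd nrp f2 : Prog M F α) :
    Prog M F α :=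
  .seq ((H207.parse enc u).map (Lens.idL M) (j ∘ jPF)) (.seq nrp
    (.seq (cpU (j .el) (j .hh) u) (.seq f2 (.seq (chk4 (j .hh) (j .go) u)
    (.seq (.seq (roundLoop (j .hh) (j .h2) (j .dat) (j .clk) (j .go) u rd)
      (directLoop (j .hh) (directW (j ∘ jDW) u (enc .hash))))
    ((H207.unpad (enc .hash)).map (Lens.idL M) (j ∘ jUF)))))))

/-- The main loop of the complete program, from the height `h`. -/
theorem tri_topMain2 {bit : Bool → α} {rd : Prog M F α} {T2 : ℕ → ℕ} {c1 : ℕ} {e : α}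
    (hj : Function.Injective j)
    (hRR : ∀ s s' : Store M F α, RR s → s'.m = s.m → (∀ f, (∀ x, f ≠ j x) → s'.z f = s.z f) →
      RR s')
    (hround : RoundSpec d u bit j rd RR T2 c1) (hn : 576 * 4 ^ l ≤ n) (X : ℕ → ℕ → Bool)
    {h : ℕ} (hhl : h ≤ l)
    {st : Store M F α} (hst : Rst j RR u l n r s st)
    (hdat : st.z (j .dat) = ⟨[], (dBits l h X).map bit⟩)
    (hhh : Len u 0 h (st.z (j .hh))) (hclk : Len u 0 0 (st.z (j .clk)))
    (hgo : Len u 0 (b01 (4 ≤ h)) (st.z (j .go))) :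
    ∃ t, Tot (T2 n) n (4 ^ l) (c1 + 36) (120 + 12) h t ∧
      Tri d (.seq (roundLoop (j .hh) (j .h2) (j .dat) (j .clk) (j .go) u rd)
        (directLoop (j .hh) (directW (j ∘ jDW) u e))) st t
        (Inv (j .hh) (j .dat) (j .clk) (j .go) (fun h => (dBits l h X).map bit)
          (Rst j RR u l n r s) u 0 0) := by
  have hl2 : l ≤ 4 ^ l := (Nat.lt_pow_self (by norm_num)).le
  refine tri_main (d := d) (u := u) (hh := j .hh) (h2 := j .h2) (dat := j .dat) (clk := j .clk)
    (go := j .go) ?_ (D := 4 ^ l) (l := l) ?_ hl2 (by positivity) ?_ ?_ ?_ hhl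
    ⟨hhh, hdat, hclk, hgo, hst⟩
  · simp [hj.eq_iff]
  · intro h
    rw [List.length_map, length_dBits]
  · intro s1 s2 h1 h2
    exact h1.keep hj hRR (h2.mono (by simp))
  · intro h s1 h4 hl hI
    obtain ⟨T, hT, htri⟩ := hround l h n X s1 h4 hl hn hI.rest.el hI.hh hI.rest.nr hI.dat hI.clk
      hI.rest.rr
    refine ⟨T, hT, htri.post ?_⟩
    rintro s2 ⟨q1, q2, q3, q4, q5⟩
    refine ⟨q1, q2, q3, ?_⟩
    have hr1 := hI.rest
    refine ⟨?_, ?_, ?_, ?_, ?_, ?_, ?_, ?_, ?_, ?_, q5⟩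
    · rw [q4 _ (by decide) (by decide) (by decide) (by decide)]; exact hr1.el
    · rw [q4 _ (by decide) (by decide) (by decide) (by decide)]; exact hr1.nr
    · rw [q4 _ (by decide) (by decide) (by decide) (by decide)]; exact hr1.w
    · rw [q4 _ (by decide) (by decide) (by decide) (by decide)]; exact hr1.n1
    · rw [q4 _ (by decide) (by decide) (by decide) (by decide)]; exact hr1.n2
    · rw [q4 _ (by decide) (by decide) (by decide) (by decide)]; exact hr1.fout
    · rw [q4 _ (by decide) (by decide) (by decide) (by decide)]; exact hr1.a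
    · rw [q4 _ (by decide) (by decide) (by decide) (by decide)]; exact hr1.b
    · rw [q4 _ (by decide) (by decide) (by decide) (by decide)]; exact hr1.c
    · rw [q4 _ (by decide) (by decide) (by decide) (by decide)]; exact hr1.e
  · intro h s1 hl hI
    have hd := tri_directW (d := d) (u := u) (j := j ∘ jDW) (hj.comp jDW_inj) (e := e) bit
      (l := l) (h := h) (by omega) X (s := s1) hI.rest.el hI.hh hI.dat hI.rest.a hI.rest.b
      hI.rest.c hI.rest.e
    refine hd.post ?_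
    rintro s2 ⟨q1, k⟩
    simp only [Function.comp, jDW] at q1 k
    refine ⟨k.len (by simp [hj.eq_iff]) hI.hh, q1, k.len (by simp [hj.eq_iff]) hI.clk,
      k.len (by simp [hj.eq_iff]) hI.go, hI.rest.keep hj hRR (k.mono ?_)⟩
    intro f hf
    simp only [List.mem_cons, List.not_mem_nil, or_false] at hf ⊢
    tauto

/-- The complete program transposes. -/
theorem run_top2 [DecidableEq α] {rd nrp f2 : Prog M F α} {T2 TA T₀ : ℕ → ℕ} {c1 cn c2 : ℕ}
    {enc : Letter → α} {NN : ℕ → ℕ → ℕ → ℕ} (henc : Function.Injective enc)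
    (hj : Function.Injective j)
    (hRR : ∀ s s' : Store M F α, RR s → s'.m = s.m → (∀ f, (∀ x, f ≠ j x) → s'.z f = s.z f) →
      RR s')
    {m0 : M} (hRR0 : ∀ s : Store M F α, s.m = m0 → (∀ f, (∀ x, f ≠ j x) → s.z f = ⟨[], []⟩) →
      RR s)
    (hround : RoundSpec d u (fun b => enc (bitL b)) j rd RR T2 c1)
    {k : ℕ} (hf2 : F2Spec k d u (fun b => enc (bitL b)) j f2 RR TA T₀ c2)
    (hnr : NrSpec d u j nrp NN cn) (hNN : ∀ l r s, 576 * 4 ^ l ≤ NN l r s)
    {r s : ℕ} (hr : 1 ≤ r) (hs : 1 ≤ s) (N : Fin r → Fin s → Bool) {l : ℕ}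
    (hl : l = Nat.clog 2 (max r s)) :
    ∃ t t2 h' V s', Ph T₀ c2 l k l h' V ∧
      t2 ≤ c2 * (TA (NN l r s) + NN l r s + 4 ^ l + V) ∧
      Tot (T2 (NN l r s)) (NN l r s) (4 ^ l) (c1 + 36) (120 + 12) h' t ∧
      Prog.Run d (topProg2 j enc u rd nrp f2) (ini j enc (matWord N) m0)
        (t + t2 + (cn + 140) * 4 ^ l) s' ∧
      (s'.z (j .fout)).full = (matWord fun a b => N b a).map enc := by
  have hle : max r s ≤ 2 ^ l := by
    rw [hl]
    exact Nat.le_pow_clog (by norm_num) _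
  have hrl : r ≤ 2 ^ l := (le_max_left _ _).trans hle
  have hsl : s ≤ 2 ^ l := (le_max_right _ _).trans hle
  have hl2 : l < 4 ^ l := Nat.lt_pow_self (by norm_num)
  -- the input phase
  have p1 := (H207.run_parse (d := d) m0 enc henc u hr N l hl).map (M := M) (L := Lens.idL M)
    (hj.comp jPF_inj) (S := ini j enc (matWord N) m0) (by
      unfold Store.pull ini
      congr 1
      funext f
      cases f <;> simp [jPF, H207.pst, hj.eq_iff])
  set S1 : Store M F α := (ini j enc (matWord N) m0).put (Lens.idL M) (j ∘ jPF)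
    ⟨m0, H207.pst ⟨[], []⟩ ⟨[], (H525.dBits l l (extM N)).map fun b => enc (bitL b)⟩
        ⟨[], List.replicate r u⟩ ⟨[], List.replicate s u⟩ ⟨[], List.replicate (2 ^ l) u⟩
        ⟨[], List.replicate (2 ^ l) u⟩ ⟨[], List.replicate l u⟩⟩ with hS1
  have z1 : ∀ x, S1.z (j (jPF x)) = H207.pst ⟨[], []⟩
        ⟨[], (H525.dBits l l (extM N)).map fun b => enc (bitL b)⟩
        ⟨[], List.replicate r u⟩ ⟨[], List.replicate s u⟩ ⟨[], List.replicate (2 ^ l) u⟩
        ⟨[], List.replicate (2 ^ l) u⟩ ⟨[], List.replicate l u⟩ x := fun x =>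
    Store.put_z_apply (hj.comp jPF_inj) _ _ x
  have z1' : ∀ f, (∀ x, j (jPF x) ≠ f) → S1.z f = ⟨[], []⟩ := by
    intro f hf
    rw [hS1, Store.put_z_of_notMem (ι := j ∘ jPF) _ _ hf]
    unfold ini
    have : f ≠ j .fin := fun h => hf .fin h.symm
    simp [this]
  have z1'' : ∀ x, (∀ y, jPF y ≠ x) → S1.z (j x) = ⟨[], []⟩ := by
    intro x hx
    exact z1' _ fun y hy => hx y (hj hy)
  -- the size of the multiplications
  obtain ⟨S2, p2, q2, m2, k2⟩ := hnr l r s S1 hr hs hrl hsl (z1 .n1) (z1 .n2) (z1 .w) (z1 .w2)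
    (z1'' .nr (by decide)) (z1'' .q (by decide)) (z1'' .t (by decide))
  have k2' : ∀ x, x ≠ .nr → S2.z (j x) = S1.z (j x) := fun x hx =>
    k2 _ fun h => hx (hj h)
  -- the loop variable
  obtain ⟨S3, p3, q3, e3, k3⟩ := tri_cpU (d := d) (u := u) (a := j .el) (b := j .hh)
    (fun h => by simpa using hj h) (s := S2) (n := l) (by
      rw [k2' .el (by decide)]
      exact z1 .el)
  have hz3 : ∀ x, x ≠ .nr → x ≠ .hh → x ≠ .el → S3.z (j x) = S1.z (j x) := by
    intro x h1 h2 h4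
    rw [k3.z (by simp [hj.eq_iff, h2, h4]), k2' x h1]
  have hrr3 : RR S3 := by
    apply hRR0
    · rw [k3.1, m2]
      rfl
    intro f hf
    rw [k3.z (by simp [hf]), k2 f (hf _)]
    exact z1' f fun x hx => hf _ hx.symm
  have hst3 : Rst j RR u l (NN l r s) r s S3 := by
    refine ⟨e3, k3.len (by simp [hj.eq_iff]) q2, ?_, ?_, ?_, ?_, ?_, ?_, ?_, ?_, hrr3⟩
    · rw [hz3 _ (by decide) (by decide) (by decide)]; exact z1 .w
    · rw [hz3 _ (by decide) (by decide) (by decide)]; exact z1 .n1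
    · rw [hz3 _ (by decide) (by decide) (by decide)]; exact z1 .n2
    · rw [hz3 _ (by decide) (by decide) (by decide)]; exact z1'' .fout (by decide)
    · rw [hz3 _ (by decide) (by decide) (by decide)]; exact z1'' .a (by decide)
    · rw [hz3 _ (by decide) (by decide) (by decide)]; exact z1'' .b (by decide)
    · rw [hz3 _ (by decide) (by decide) (by decide)]; exact z1'' .c (by decide)
    · rw [hz3 _ (by decide) (by decide) (by decide)]; exact z1'' .e (by decide)
  -- the rounds over `F_p`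
  obtain ⟨t2, h', V, hPh, ht2, S3', p3', d3', hh3', clk3', k3', rr3'⟩ := hf2 l (NN l r s)
    (extM N) S3 (hNN l r s) hst3.el q3 hst3.nr
    (by rw [hz3 _ (by decide) (by decide) (by decide)]; exact z1 .dat)
    (by rw [hz3 _ (by decide) (by decide) (by decide)]; exact z1'' .clk (by decide)) hrr3
  obtain ⟨S4, p4, q4, g4, k4⟩ := tri_chk4 (d := d) (u := u) (f := j .hh) (go := j .go)
    (fun h => by simpa using hj h) (s := S3') hh3' (by
      rw [k3' .go (by decide) (by decide) (by decide), k3.z (by simp [hj.eq_iff]),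
        k2' .go (by decide)]
      exact z1'' .go (by decide))
  rw [Nat.zero_add] at q4 g4
  have hz4 : ∀ x, x ≠ .hh → x ≠ .go → x ≠ .dat → x ≠ .clk → S4.z (j x) = S3.z (j x) := by
    intro x h1 h2 h3 h4
    rw [k4.z (by simp [hj.eq_iff, h1, h2]), k3' x h3 h1 h4]
  have hst4 : Rst j RR u l (NN l r s) r s S4 := by
    refine ⟨?_, ?_, ?_, ?_, ?_, ?_, ?_, ?_, ?_, ?_, ?_⟩
    · rw [hz4 _ (by decide) (by decide) (by decide) (by decide)]; exact hst3.el
    · rw [hz4 _ (by decide) (by decide) (by decide) (by decide)]; exact hst3.nr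
    · rw [hz4 _ (by decide) (by decide) (by decide) (by decide)]; exact hst3.w
    · rw [hz4 _ (by decide) (by decide) (by decide) (by decide)]; exact hst3.n1
    · rw [hz4 _ (by decide) (by decide) (by decide) (by decide)]; exact hst3.n2
    · rw [hz4 _ (by decide) (by decide) (by decide) (by decide)]; exact hst3.fout
    · rw [hz4 _ (by decide) (by decide) (by decide) (by decide)]; exact hst3.a
    · rw [hz4 _ (by decide) (by decide) (by decide) (by decide)]; exact hst3.b
    · rw [hz4 _ (by decide) (by decide) (by decide) (by decide)]; exact hst3.c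
    · rw [hz4 _ (by decide) (by decide) (by decide) (by decide)]; exact hst3.e
    · exact hRR _ _ rr3' k4.1 fun f hf => k4.z (by simp [hf])
  -- the main loop
  obtain ⟨t, ht, S5, p5, q5⟩ := tri_topMain2 (d := d) (e := enc .hash) hj hRR hround
    (hNN l r s) (extM N) (Ph.le hPh) hst4
    (by rw [k4.z (by simp [hj.eq_iff])]; exact d3') q4
    (k4.len (by simp [hj.eq_iff]) clk3') g4
  -- the output phase
  have p6 := (H207.run_unpad_dBits (d := d) S5.m enc hs N l hrl hsl
    (List.replicate (2 ^ l) u) (List.replicate r u) (List.replicate s u) (by simp) (by simp)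
    (by simp)).map (M := M) (L := Lens.idL M) (hj.comp jUF_inj) (S := S5) (by
      unfold Store.pull
      congr 1
      funext f
      cases f
      · simp only [Function.comp, jUF, H207.ust, H207.atp_zero]; exact q5.dat
      · simp only [Function.comp, jUF, H207.ust]; exact q5.rest.fout
      · simp only [Function.comp, jUF, H207.ust, H207.atp_zero]; exact q5.rest.w
      · simp only [Function.comp, jUF, H207.ust, H207.atp_zero]; exact q5.rest.n1
      · simp only [Function.comp, jUF, H207.ust, H207.atp_zero]; exact q5.rest.n2)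
  refine ⟨t, t2, h', V, _, hPh, ht2, ht,
    (p1.seq (p2.seq (p3.seq (p3'.seq (p4.seq (p5.seq p6)))))).mono ?_, ?_⟩
  · have e1 : (cn + 140) * 4 ^ l = cn * 4 ^ l + 140 * 4 ^ l := by ring
    rw [e1]
    omega
  · have := Store.put_z_apply (hj.comp jUF_inj) (L := Lens.idL M) S5
      ⟨S5.m, H207.ust ((H525.dBits l 0 (extM N)).map fun b => enc (bitL b))
        (List.replicate (2 ^ l) u) (List.replicate r u) (List.replicate s u) (s * 2 ^ l) 0 0 0
        ((matWord fun j i => N i j).map enc)⟩ .out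
    simp only [Function.comp, jUF] at this
    rw [this]
    simp [H207.ust, Zip.full]

end Vale.Agent.P338.R2.H784.Fp
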